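import Vale.Agent.P237.Sharp.Ellipsoid
import Vale.Agent.P237.Assembly
import Vale.Agent.P237.Cylinder

/-!
P237: the projection volume ratio attains its minimum on convex bodies.

A body with a maximal inscribed simplex sent to the standard one lies between two fixed balls. Among
such bodies a Hausdorff limit lies between homothetic copies of the terms, so the monotonicity and
homogeneity of the two volumes replace continuity.
-/

noncomputable section

open MeasureTheory Set Metric Filter Topology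
open scoped RealInnerProductSpace Pointwise

namespace Vale.Agent.P237.Three

variable {n : ℕ}

/-- A convex body. -/
def IsBody (K : Set (E n)) : Prop := IsCompact K ∧ Convex ℝ K ∧ (interior K).Nonempty

/-- The ratio `|ΠK| / |K|^(n-1)`. -/
def ratio (K : Set (E n)) : ℝ := vol (projectionBody K) / vol K ^ (n - 1)

theorem vol_pos {K : Set (E n)} (hK : IsBody K) : 0 < vol K :=
  ENNReal.toReal_pos
    ((isOpen_interior.measure_pos volume hK.2.2).trans_le (measure_mono interior_subset)).ne'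
    hK.1.measure_lt_top.ne

theorem ratio_nonneg (K : Set (E n)) : 0 ≤ ratio K :=
  div_nonneg ENNReal.toReal_nonneg (pow_nonneg ENNReal.toReal_nonneg _)

/-- The projection body of a linear image. -/
theorem projectionBody_image {K : Set (E n)} (hK : IsCompact K) (S : E n ≃ₗ[ℝ] E n) :
    projectionBody (S '' K) = (|LinearMap.det (S : E n →ₗ[ℝ] E n)|⁻¹ •
      LinearMap.adjoint (S : E n →ₗ[ℝ] E n)) ⁻¹' projectionBody K := by
  set D := |LinearMap.det (S : E n →ₗ[ℝ] E n)|
  have hD : 0 < D := abs_pos.2 (LinearEquiv.isUnit_det' S).ne_zero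
  ext y
  simp only [mem_preimage, projectionBody, mem_ofPred_eq, LinearMap.smul_apply,
    real_inner_smul_left, LinearMap.adjoint_inner_left, LinearEquiv.coe_coe]
  constructor
  · intro h u hu
    set v := S u
    have hv : 0 < ‖v‖ := norm_pos_iff.2 fun h0 => by
      simp [v, S.map_eq_zero_iff] at h0; simp [h0] at hu
    have hu' : ‖‖v‖⁻¹ • v‖ = 1 := by rw [norm_smul, norm_inv, norm_norm, inv_mul_cancel₀ hv.ne']
    have h1 := (h _ hu').trans_eq (Sharp.vol_shadowCylinder_image hK S hu')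
    rw [map_smul, LinearEquiv.symm_apply_apply, norm_smul, norm_inv, norm_norm, hu, mul_one,
      inv_inv, smul_smul, mul_inv_cancel₀ hv.ne', one_smul, real_inner_smul_right,
      mul_left_comm, mul_le_mul_iff_right₀ (inv_pos.2 hv), ← vol_shadowCylinder hK hu] at h1
    exact (inv_mul_le_iff₀ hD).2 h1
  · intro h u hu
    set v := S.symm u
    have hv : 0 < ‖v‖ := norm_pos_iff.2 fun h0 => by
      simp [v, S.symm.map_eq_zero_iff] at h0; simp [h0] at hu
    have hu' : ‖‖v‖⁻¹ • v‖ = 1 := by rw [norm_smul, norm_inv, norm_norm, inv_mul_cancel₀ hv.ne']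
    have h1 := h _ hu'
    rw [map_smul, real_inner_smul_right, LinearEquiv.apply_symm_apply, inv_mul_le_iff₀ hD,
      inv_mul_le_iff₀ hv, vol_shadowCylinder hK hu'] at h1
    rw [Sharp.vol_shadowCylinder_image hK S hu]
    exact h1.trans_eq (mul_left_comm _ _ _)

/-- The projection volume of a linear image. -/
theorem vol_projectionBody_image (hn : 1 ≤ n) {K : Set (E n)} (hK : IsCompact K)
    (S : E n ≃ₗ[ℝ] E n) :
    vol (projectionBody (S '' K))
      = |LinearMap.det (S : E n →ₗ[ℝ] E n)| ^ (n - 1) * vol (projectionBody K) := by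
  set S' := (S : E n →ₗ[ℝ] E n)
  set D := |LinearMap.det S'|
  have hD : 0 < D := abs_pos.2 (LinearEquiv.isUnit_det' S).ne_zero
  set b := EuclideanSpace.basisFun (Fin n) ℝ
  have hadj : LinearMap.det (LinearMap.adjoint S') = LinearMap.det S' := by
    rw [← LinearMap.det_toMatrix b.toBasis, LinearMap.toMatrix_adjoint b b,
      Matrix.det_conjTranspose, LinearMap.det_toMatrix, star_trivial]
  have hdet : LinearMap.det (D⁻¹ • LinearMap.adjoint S') = D⁻¹ ^ n * LinearMap.det S' := by
    rw [LinearMap.det_smul, finrank_euclideanSpace_fin, hadj]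
  have h0 : LinearMap.det (D⁻¹ • LinearMap.adjoint S') ≠ 0 := by
    rw [hdet]
    exact mul_ne_zero (pow_ne_zero _ (inv_ne_zero hD.ne')) (LinearEquiv.isUnit_det' S).ne_zero
  rw [projectionBody_image hK, vol, Measure.addHaar_preimage_linearMap _ h0, ENNReal.toReal_mul,
    ENNReal.toReal_ofReal (abs_nonneg _), ← vol.eq_def, hdet, abs_inv, abs_mul, abs_pow, abs_inv,
    abs_of_pos hD]
  congr 1
  obtain ⟨m, rfl⟩ : ∃ m, n = m + 1 := ⟨n - 1, by omega⟩
  rw [Nat.add_sub_cancel, pow_succ, inv_pow, mul_assoc, inv_mul_cancel₀ hD.ne', mul_one, inv_inv]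

theorem vol_image_equiv (S : E n ≃ₗ[ℝ] E n) (K : Set (E n)) :
    vol (S '' K) = |LinearMap.det (S : E n →ₗ[ℝ] E n)| * vol K := by
  rw [show S '' K = (S : E n →ₗ[ℝ] E n) '' K from rfl, vol, Measure.addHaar_image_linearMap,
    ENNReal.toReal_mul, ENNReal.toReal_ofReal (abs_nonneg _), vol]

theorem vol_translate (K : Set (E n)) (g : E n) : vol ((fun x => g + x) '' K) = vol K := by
  rw [show (fun x => g + x) '' K = g +ᵥ K from rfl, vol, measure_vadd, vol]

/-- The ratio is affinely invariant. -/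
theorem ratio_affine (hn : 1 ≤ n) {K : Set (E n)} (hK : IsCompact K) (g : E n)
    (S : E n ≃ₗ[ℝ] E n) : ratio ((fun x => g + S x) '' K) = ratio K := by
  rw [show (fun x => g + S x) '' K = (fun x => g + x) '' (S '' K) by rw [Set.image_image]]
  unfold ratio
  rw [Sharp.projectionBody_translate, vol_translate, vol_image_equiv,
    vol_projectionBody_image hn hK, mul_pow]
  exact mul_div_mul_left _ _ (pow_ne_zero _ (abs_pos.2 (LinearEquiv.isUnit_det' S).ne_zero).ne')

/-- The coordinates in a maximal inscribed simplex. -/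
theorem exists_bounded_coords {K : Set (E n)} (hK : IsBody K) :
    ∃ (p : E n) (x : Fin n → E n) (b : Module.Basis (Fin n) ℝ (E n)), p ∈ K ∧ (∀ i, x i ∈ K) ∧
      (∀ i, b i = x i - p) ∧ ∀ y ∈ K, ∀ i, |b.repr (y - p) i| ≤ 1 := by
  classical
  set e := (EuclideanSpace.basisFun (Fin n) ℝ).toBasis
  have hS : IsCompact (K ×ˢ Set.pi univ fun _ : Fin n => K) :=
    hK.1.prod (isCompact_univ_pi fun _ => hK.1)
  obtain ⟨x₀, hx₀⟩ := hK.2.2
  have hK0 : x₀ ∈ K := interior_subset hx₀
  have hcont : Continuous fun q : E n × (Fin n → E n) => |e.det fun i => q.2 i - q.1| := by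
    simp only [e.det_apply, Matrix.det_apply', Module.Basis.toMatrix_apply, e,
      OrthonormalBasis.coe_toBasis_repr_apply, EuclideanSpace.basisFun_repr, PiLp.sub_apply]
    fun_prop
  obtain ⟨⟨p, x⟩, ⟨hp, hx⟩, hmax⟩ := hS.exists_isMaxOn ⟨(x₀, fun _ => x₀), hK0, fun _ _ => hK0⟩
    hcont.continuousOn
  obtain ⟨r, hr, hball⟩ := nhds_basis_closedBall.mem_iff.1 (mem_interior_iff_mem_nhds.1 hx₀)
  have hpos : 0 < |e.det fun i => x i - p| := by
    refine lt_of_lt_of_le ?_ (hmax (a := (x₀, fun i => x₀ + r • e i)) ⟨hK0, fun i _ => hball ?_⟩)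
    · simp only [add_sub_cancel_left]
      rw [e.det.map_smul_univ (fun _ => r), e.det_self]
      simp [hr.ne']
    · simp [mem_closedBall_iff_norm, norm_smul, e, abs_of_pos hr]
  have hli := (Module.Basis.is_basis_iff_det e (v := fun i => x i - p)).2
    (isUnit_iff_ne_zero.2 (abs_pos.1 hpos))
  refine ⟨p, x, Module.Basis.mk hli.1 hli.2.ge, hp, fun i => hx i trivial,
    fun i => Module.Basis.mk_apply _ _ i, fun y hy i => ?_⟩
  set b := Module.Basis.mk hli.1 hli.2.ge
  have hb : (b : Fin n → E n) = fun i => x i - p := Module.Basis.coe_mk _ _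
  have hrep : e.det (Function.update (fun i => x i - p) i (y - p))
      = b.repr (y - p) i * e.det fun i => x i - p := by
    conv_lhs => rw [← b.sum_repr (y - p), hb]
    rw [e.det.map_update_sum, Finset.sum_eq_single i]
    · rw [e.det.map_update_smul, Function.update_eq_self, smul_eq_mul]
    · intro j _ hj
      rw [e.det.map_update_smul, e.det.map_eq_zero_of_eq _ (i := i) (j := j) ?_ (Ne.symm hj),
        smul_zero]
      rw [Function.update_self, Function.update_of_ne hj]
    · exact fun h => absurd (Finset.mem_univ i) h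
  have hm : |e.det (Function.update (fun i => x i - p) i (y - p))| ≤ |e.det fun i => x i - p| := by
    have h := hmax (a := (p, Function.update x i y)) ⟨hp, fun j _ => by
      show Function.update x i y j ∈ K
      by_cases hj : j = i
      · subst hj; rwa [Function.update_self]
      · rw [Function.update_of_ne hj]; exact hx j trivial⟩
    simp only [mem_setOf_eq] at h
    rwa [show (fun j => Function.update x i y j - p)
      = Function.update (fun j => x j - p) i (y - p) from funext fun j => by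
        by_cases hj : j = i
        · subst hj; simp
        · simp [hj]] at h
  rw [hrep, abs_mul] at hm
  exact le_of_mul_le_mul_right (hm.trans_eq (one_mul _).symm) hpos

/-- Every body has a position between two fixed balls. -/
theorem exists_position (hn : 1 ≤ n) {K : Set (E n)} (hK : IsBody K) :
    ∃ (g : E n) (S : E n ≃ₗ[ℝ] E n), closedBall (0 : E n) (1 / (4 * n)) ⊆ (fun x => g + S x) '' K ∧
      (fun x => g + S x) '' K ⊆ closedBall (0 : E n) (2 * n) := by
  classical
  obtain ⟨p, x, b, hp, hx, hb, hco⟩ := exists_bounded_coords hK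
  set S := b.repr.trans ((Finsupp.linearEquivFunOnFinite ℝ ℝ (Fin n)).trans
    (WithLp.linearEquiv 2 ℝ (Fin n → ℝ)).symm)
  have hS : ∀ v i, (S v) i = b.repr v i := fun v i => by simp [S]
  set c : E n := WithLp.toLp 2 fun _ => 1 / (2 * (n : ℝ))
  refine ⟨-S p - c, S, ?_, ?_⟩
  · intro z hz
    rw [mem_closedBall_zero_iff] at hz
    have hn0 : (0 : ℝ) < n := by exact_mod_cast hn
    have hzi : ∀ i, |z i| ≤ 1 / (4 * n) := fun i =>
      (by simpa [Real.norm_eq_abs] using PiLp.norm_apply_le z i : |z i| ≤ ‖z‖).trans hz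
    set t := fun i => z i + 1 / (2 * (n : ℝ))
    have ht : ∀ i, 0 ≤ t i := fun i => by
      have h1 := (abs_le.1 (hzi i)).1
      have h2 : (1 : ℝ) / (4 * n) ≤ 1 / (2 * n) := by gcongr; norm_num
      simp only [t]
      linarith
    have ht1 : ∑ i, t i ≤ 1 := by
      refine (Finset.sum_le_sum (g := fun _ => 3 / (4 * (n : ℝ))) fun i _ => ?_).trans ?_
      · have h1 := (abs_le.1 (hzi i)).2
        have h2 : 1 / (4 * (n : ℝ)) + 1 / (2 * n) = 3 / (4 * n) := by field_simp; norm_num
        simp only [t]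
        linarith
      · rw [Finset.sum_const, Finset.card_univ, Fintype.card_fin, nsmul_eq_mul]
        field_simp
        norm_num
    refine ⟨p + ∑ i, t i • (x i - p), ?_, ?_⟩
    · have h := hK.2.1.sum_mem (t := (Finset.univ : Finset (Option (Fin n))))
        (w := fun o => Option.elim o (1 - ∑ i, t i) t) (z := fun o => Option.elim o p x)
        (fun o _ => by cases o with
          | none => simpa using ht1
          | some i => exact ht i)
        (by simp [Fintype.sum_option]) (fun o _ => by cases o with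
          | none => exact hp
          | some i => exact hx i)
      simp only [Fintype.sum_option, Option.elim] at h
      convert h using 1
      simp only [smul_sub, Finset.sum_sub_distrib, ← Finset.sum_smul, sub_smul, one_smul]
      abel
    · show -S p - c + S (p + ∑ i, t i • (x i - p)) = z
      rw [map_add, map_sum]
      ext j
      simp only [PiLp.add_apply, PiLp.sub_apply, PiLp.neg_apply, WithLp.ofLp_sum, Finset.sum_apply,
        map_smul, PiLp.smul_apply, smul_eq_mul, hS, ← hb, b.repr_self, Finsupp.single_apply,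
        mul_ite, mul_one, mul_zero, Finset.sum_ite_eq', Finset.mem_univ, if_true, c, t]
      ring
  · rintro _ ⟨y, hy, rfl⟩
    rw [mem_closedBall_zero_iff]
    have hc : ∀ i, |(-S p - c + S y) i| ≤ 2 := fun i => by
      have h := hco y hy i
      rw [map_sub, Finsupp.sub_apply] at h
      simp only [PiLp.add_apply, PiLp.sub_apply, PiLp.neg_apply, hS, c]
      have h0 : (1 : ℝ) / (2 * n) ≤ 1 := by
        rw [div_le_one (by positivity)]
        linarith [(Nat.one_le_cast.2 hn : (1 : ℝ) ≤ n)]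
      have h1 : (0 : ℝ) ≤ 1 / (2 * n) := by positivity
      rw [abs_le] at h ⊢
      constructor <;> linarith
    set w : E n := -S p - c + S y
    have hw : w = ∑ i, w i • EuclideanSpace.single i (1 : ℝ) := by
      ext j; simp [Pi.single_apply]
    show ‖w‖ ≤ 2 * n
    conv_lhs => rw [hw]
    refine (norm_sum_le _ _).trans ((Finset.sum_le_sum (g := fun _ => (2 : ℝ)) fun i _ => ?_).trans
      (le_of_eq ?_))
    · rw [norm_smul]; simpa using hc i
    · simp; ring

/-- Close convex bodies around a ball are close under homothety. -/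
theorem sandwich {A B : Set (E n)} {r t : ℝ} (hB : Convex ℝ B) (ht : 0 ≤ t) (hr : 0 < r)
    (hball : closedBall (0 : E n) r ⊆ B) (hAB : ∀ a ∈ A, ∃ b ∈ B, dist a b ≤ t * r) :
    A ⊆ (1 + t) • B := by
  intro a ha
  obtain ⟨b, hb, hab⟩ := hAB a ha
  rw [hB.add_smul zero_le_one ht, one_smul]
  refine ⟨b, hb, a - b, ?_, by simp⟩
  refine (smul_set_mono hball) ?_
  rcases eq_or_lt_of_le ht with h | h
  · subst h
    rw [zero_mul] at hab
    simp [dist_le_zero.1 hab, zero_smul_set ⟨(0 : E n), mem_closedBall_self hr.le⟩]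
  · rw [smul_closedBall _ _ hr.le, smul_zero, Real.norm_of_nonneg ht, mem_closedBall_zero_iff,
      ← dist_eq_norm]
    exact hab

/-- Monotonicity up to homothety. -/
theorem ratio_le_of_sandwich (hn : 1 ≤ n) {K L : Set (E n)} (hK : IsBody K) (hL : IsBody L)
    {c : ℝ} (hc : 0 < c) (hLK : L ⊆ c • K) (hKL : K ⊆ c • L) :
    ratio L ≤ c ^ (2 * n * (n - 1)) * ratio K := by
  set S := LinearEquiv.smulOfNeZero ℝ (E n) c hc.ne'
  have hS : ∀ A : Set (E n), S '' A = c • A := fun A => by
    ext z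
    simp [S, mem_smul_set]
  have hdet : |LinearMap.det (S : E n →ₗ[ℝ] E n)| = c ^ n := by
    rw [show (S : E n →ₗ[ℝ] E n) = c • LinearMap.id by ext v; simp [S], LinearMap.det_smul,
      finrank_euclideanSpace_fin, LinearMap.det_id, mul_one, abs_of_pos (pow_pos hc n)]
  have hcK : IsCompact (c • K) := hK.1.smul c
  have h1 : vol (projectionBody L) ≤ (c ^ n) ^ (n - 1) * vol (projectionBody K) := by
    rw [← hdet, ← vol_projectionBody_image hn hK.1, hS, projectionBody_eq hL.1,
      projectionBody_eq hcK]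
    exact ENNReal.toReal_mono (isBounded_projBody _).measure_lt_top.ne
      (measure_mono (projBody_mono hcK hLK))
  have h2 : vol K ≤ c ^ n * vol L := by
    rw [← hdet, ← vol_image_equiv, hS]
    exact ENNReal.toReal_mono (hL.1.smul c).measure_lt_top.ne (measure_mono hKL)
  have hK0 := vol_pos hK
  have hL0 := vol_pos hL
  unfold ratio
  rw [mul_div_assoc', div_le_div_iff₀ (pow_pos hL0 _) (pow_pos hK0 _)]
  refine (mul_le_mul h1 (pow_le_pow_left₀ hK0.le h2 _) (by positivity)
    (mul_nonneg (by positivity) ENNReal.toReal_nonneg)).trans (le_of_eq ?_)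
  rw [mul_pow, ← pow_mul c n (n - 1), show 2 * n * (n - 1) = n * (n - 1) + n * (n - 1) by ring,
    pow_add]
  ring

/-- Symmetry about the origin. -/
def IsSymm (K : Set (E n)) : Prop := ∀ x ∈ K, -x ∈ K

/-- A symmetric body has a linear position between two fixed balls. -/
theorem exists_position_symm (hn : 1 ≤ n) {K : Set (E n)} (hK : IsBody K) (hs : IsSymm K) :
    ∃ S : E n ≃ₗ[ℝ] E n, closedBall (0 : E n) (1 / (4 * n)) ⊆ S '' K ∧
      S '' K ⊆ closedBall (0 : E n) (4 * n) ∧ IsSymm (S '' K) := by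
  obtain ⟨g, S, hin, hout⟩ := exists_position hn hK
  have hS : IsSymm (S '' K) := by
    rintro _ ⟨x, hx, rfl⟩
    exact ⟨-x, hs x hx, map_neg _ _⟩
  have hg : ‖g‖ ≤ 2 * n := by
    obtain ⟨x₀, hx₀⟩ := hK.2.2
    have hx := interior_subset hx₀
    have h0 : (0 : E n) ∈ K := by
      have h := hK.2.1 hx (hs _ hx) (by norm_num : (0 : ℝ) ≤ 1 / 2) (by norm_num : (0 : ℝ) ≤ 1 / 2)
        (by norm_num)
      simpa using h
    simpa using hout ⟨0, h0, rfl⟩
  refine ⟨S, fun z hz => ?_, ?_, hS⟩
  · rw [mem_closedBall_zero_iff] at hz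
    obtain ⟨a, ha, h1⟩ := hin (show z ∈ closedBall (0 : E n) (1 / (4 * n)) by simpa using hz)
    obtain ⟨b, hb, h2⟩ := hin (show -z ∈ closedBall (0 : E n) (1 / (4 * n)) by simpa using hz)
    refine ⟨(1 / 2 : ℝ) • a + (1 / 2 : ℝ) • -b,
      hK.2.1 ha (hs b hb) (by norm_num) (by norm_num) (by norm_num), ?_⟩
    simp only [map_add, map_smul, map_neg]
    replace h1 : g + S a = z := h1
    replace h2 : g + S b = -z := h2
    rw [show S a = z - g from eq_sub_of_add_eq' h1, show S b = -z - g from eq_sub_of_add_eq' h2]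
    module
  · rintro _ ⟨x, hx, rfl⟩
    have h := mem_closedBall_zero_iff.1 (hout ⟨x, hx, rfl⟩)
    rw [mem_closedBall_zero_iff]
    calc ‖S x‖ = ‖(g + S x) - g‖ := by rw [add_sub_cancel_left]
      _ ≤ 2 * n + 2 * n := (norm_sub_le _ _).trans (add_le_add h hg)
      _ = 4 * n := by ring

/-- The ratio attains its minimum on a class that has bounded positions and is closed. -/
theorem exists_minimiser_on (hn : 1 ≤ n) (Q : Set (E n) → Prop) {R : ℝ} (hR : 0 ≤ R)
    (hQ1 : Q (closedBall 0 1))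
    (hQpos : ∀ K : Set (E n), IsBody K → Q K → ∃ (g : E n) (S : E n ≃ₗ[ℝ] E n),
      closedBall (0 : E n) (1 / (4 * n)) ⊆ (fun x => g + S x) '' K ∧
      (fun x => g + S x) '' K ⊆ closedBall (0 : E n) R ∧ Q ((fun x => g + S x) '' K))
    (hQlim : ∀ L : Set (E n), IsCompact L → (∀ ε : ℝ, 0 < ε → ∃ A, Q A ∧
      (∀ a ∈ A, ∃ b ∈ L, dist a b ≤ ε) ∧ ∀ b ∈ L, ∃ a ∈ A, dist b a ≤ ε) → Q L) :
    ∃ K₀ : Set (E n), IsBody K₀ ∧ Q K₀ ∧
      ∀ K : Set (E n), IsBody K → Q K → ratio K₀ ≤ ratio K := by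
  classical
  set V := ratio '' {K : Set (E n) | IsBody K ∧ Q K}
  have hne : V.Nonempty := ⟨_, closedBall 0 1, ⟨⟨isCompact_closedBall _ _, convex_closedBall _ _,
    ⟨0, by simp [interior_closedBall _ one_ne_zero]⟩⟩, hQ1⟩, rfl⟩
  have hbb : BddBelow V := ⟨0, by rintro _ ⟨K, -, rfl⟩; exact ratio_nonneg K⟩
  set I := sInf V
  have hI : ∀ K : Set (E n), IsBody K → Q K → I ≤ ratio K := fun K hK hQ =>
    csInf_le hbb ⟨K, ⟨hK, hQ⟩, rfl⟩
  set r : ℝ := 1 / (4 * n)
  have hn0 : (0 : ℝ) < n := by exact_mod_cast hn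
  have hr : 0 < r := by positivity
  set X := closedBall (0 : E n) R
  have hex : ∀ j : ℕ, ∃ K : TopologicalSpace.NonemptyCompacts X,
      IsBody (Subtype.val '' (K : Set X)) ∧ Q (Subtype.val '' (K : Set X)) ∧ closedBall (0 : E n) r ⊆ Subtype.val '' (K : Set X) ∧
      ratio (Subtype.val '' (K : Set X)) ≤ I + 1 / ((j : ℝ) + 1) := fun j => by
    obtain ⟨_, ⟨K, ⟨hK, hKQ⟩, rfl⟩, hlt⟩ :=
      exists_lt_of_csInf_lt hne (lt_add_of_pos_right I (show (0 : ℝ) < 1 / ((j : ℝ) + 1) by positivity))
    obtain ⟨g, S, hin, hout, hQ'⟩ := hQpos K hK hKQ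
    set K' := (fun x => g + S x) '' K
    have hK'c : IsCompact K' :=
      hK.1.image (continuous_const.add (LinearMap.continuous_of_finiteDimensional S.toLinearMap))
    have hb : IsBody K' := ⟨hK'c, by
      rw [show K' = (fun x => g + x) '' (S '' K) by rw [Set.image_image]]
      exact (hK.2.1.linear_image S.toLinearMap).translate g,
      ⟨0, mem_interior_iff_mem_nhds.2 (mem_of_superset (closedBall_mem_nhds _ hr) hin)⟩⟩
    have himg : Subtype.val '' (Subtype.val ⁻¹' K' : Set X) = K' := by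
      rw [Subtype.image_preimage_coe, inter_eq_right.2 hout]
    refine ⟨⟨⟨Subtype.val ⁻¹' K', Topology.IsEmbedding.subtypeVal.isInducing.isCompact_iff.2
      (by rw [himg]; exact hK'c)⟩, ⟨⟨0, mem_closedBall_self hR⟩,
        hin (mem_closedBall_self hr.le)⟩⟩, ?_⟩
    show IsBody (Subtype.val '' (Subtype.val ⁻¹' K' : Set X)) ∧
      Q (Subtype.val '' (Subtype.val ⁻¹' K' : Set X)) ∧
      closedBall (0 : E n) r ⊆ Subtype.val '' (Subtype.val ⁻¹' K' : Set X) ∧
      ratio (Subtype.val '' (Subtype.val ⁻¹' K' : Set X)) ≤ I + 1 / ((j : ℝ) + 1)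
    rw [himg]
    exact ⟨hb, hQ', hin, by rw [ratio_affine hn hK.1]; exact hlt.le⟩
  choose Kj hbody hQj hball hrat using hex
  have : CompactSpace X := isCompact_iff_compactSpace.1 (isCompact_closedBall _ _)
  obtain ⟨L₀, -, φ, hφ, hlim⟩ := isCompact_univ.tendsto_subseq fun j => mem_univ (Kj j)
  set A := fun j => Subtype.val '' (Kj (φ j) : Set X)
  set L := Subtype.val '' (L₀ : Set X)
  have hLc : IsCompact L := L₀.isCompact.image continuous_subtype_val
  have happ : ∀ ε : ℝ, 0 < ε → ∀ᶠ j in atTop,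
      (∀ a ∈ A j, ∃ b ∈ L, dist a b ≤ ε) ∧ ∀ b ∈ L, ∃ a ∈ A j, dist b a ≤ ε := fun ε hε => by
    filter_upwards [Metric.tendsto_nhds.1 hlim ε hε] with j hj
    rw [Metric.NonemptyCompacts.dist_eq] at hj
    have hfin := hausdorffEDist_ne_top_of_nonempty_of_bounded (Kj (φ j)).nonempty L₀.nonempty
      (Kj (φ j)).isCompact.isBounded L₀.isCompact.isBounded
    constructor
    · rintro _ ⟨a, ha, rfl⟩
      obtain ⟨b, hb, hab⟩ := exists_dist_lt_of_hausdorffDist_lt ha hj hfin
      exact ⟨b, ⟨b, hb, rfl⟩, hab.le⟩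
    · rintro _ ⟨b, hb, rfl⟩
      obtain ⟨a, ha, hab⟩ := exists_dist_lt_of_hausdorffDist_lt' hb hj hfin
      exact ⟨a, ⟨a, ha, rfl⟩, by rw [dist_comm]; exact hab.le⟩
  have hmem : ∀ z : E n, (∀ ε : ℝ, 0 < ε → ∃ b ∈ L, dist z b ≤ ε) → z ∈ L := fun z hz => by
    rw [← hLc.isClosed.closure_eq, Metric.mem_closure_iff]
    intro ε hε
    obtain ⟨b, hb, h⟩ := hz (ε / 2) (by positivity)
    exact ⟨b, hb, h.trans_lt (half_lt_self hε)⟩
  have hLball : closedBall (0 : E n) r ⊆ L := fun z hz => hmem z fun ε hε => by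
    obtain ⟨j, hj, -⟩ := (happ ε hε).exists
    exact hj z (hball (φ j) hz)
  have hLconv : Convex ℝ L := fun u hu v hv s t hs ht hst => hmem _ fun ε hε => by
    obtain ⟨j, h1, h2⟩ := (happ (ε / 2) (by positivity)).exists
    obtain ⟨u', hu', du⟩ := h2 u hu
    obtain ⟨v', hv', dv⟩ := h2 v hv
    obtain ⟨w, hw, dw⟩ := h1 _ ((hbody (φ j)).2.1 hu' hv' hs ht hst)
    refine ⟨w, hw, (dist_triangle _ _ _).trans ((add_le_add ?_ dw).trans_eq (add_halves ε))⟩
    refine (dist_add_add_le _ _ _ _).trans ?_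
    rw [dist_smul₀, dist_smul₀, Real.norm_of_nonneg hs, Real.norm_of_nonneg ht]
    calc s * dist u u' + t * dist v v' ≤ s * (ε / 2) + t * (ε / 2) := by gcongr
      _ = ε / 2 := by rw [← add_mul, hst, one_mul]
  have hLb : IsBody L := ⟨hLc, hLconv,
    ⟨0, mem_interior_iff_mem_nhds.2 (mem_of_superset (closedBall_mem_nhds _ hr) hLball)⟩⟩
  refine ⟨L, hLb, hQlim L hLc fun ε hε => ?_, fun K hK hQ => le_trans ?_ (hI K hK hQ)⟩
  · obtain ⟨j, hj⟩ := (happ ε hε).exists
    exact ⟨A j, hQj (φ j), hj⟩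
  have hstep : ∀ t : ℝ, 0 < t → ratio L ≤ (1 + t) ^ (2 * n * (n - 1)) * (I + t) := fun t ht => by
    obtain ⟨j, ⟨h1, h2⟩, h3⟩ := ((happ (t * r) (by positivity)).and
      ((tendsto_one_div_add_atTop_nhds_zero_nat.comp hφ.tendsto_atTop).eventually
        (eventually_le_nhds ht))).exists
    refine (ratio_le_of_sandwich hn (hbody (φ j)) hLb (by linarith)
      (sandwich (hbody (φ j)).2.1 ht.le hr (hball (φ j)) h2)
      (sandwich hLconv ht.le hr hLball h1)).trans ?_
    exact mul_le_mul_of_nonneg_left ((hrat (φ j)).trans (add_le_add le_rfl h3)) (by positivity)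
  have hcont : Continuous fun t : ℝ => (1 + t) ^ (2 * n * (n - 1)) * (I + t) := by fun_prop
  have := ge_of_tendsto ((hcont.tendsto 0).mono_left (nhdsWithin_le_nhds (s := Ioi 0)))
    (eventually_nhdsWithin_of_forall fun t ht => hstep t ht)
  simpa using this

/-- The ratio attains its minimum on all bodies. -/
theorem exists_minimiser (hn : 1 ≤ n) :
    ∃ K₀ : Set (E n), IsBody K₀ ∧ ∀ K : Set (E n), IsBody K → ratio K₀ ≤ ratio K := by
  obtain ⟨K₀, h0, -, h⟩ := exists_minimiser_on hn (fun _ => True) (R := 2 * n) (by positivity) trivial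
    (fun K hK _ => by
      obtain ⟨g, S, h1, h2⟩ := exists_position hn hK
      exact ⟨g, S, h1, h2, trivial⟩)
    fun _ _ _ => trivial
  exact ⟨K₀, h0, fun K hK => h K hK trivial⟩

/-- The ratio attains its minimum on symmetric bodies. -/
theorem exists_minimiser_symm (hn : 1 ≤ n) :
    ∃ K₀ : Set (E n), IsBody K₀ ∧ IsSymm K₀ ∧
      ∀ K : Set (E n), IsBody K → IsSymm K → ratio K₀ ≤ ratio K := by
  refine exists_minimiser_on hn IsSymm (R := 4 * n) (by positivity) (fun x hx => by simpa using hx)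
    (fun K hK hs => ?_) fun L hL h x hx => ?_
  · obtain ⟨S, h1, h2, h3⟩ := exists_position_symm hn hK hs
    exact ⟨0, S, by simpa using h1, by simpa using h2, by simpa using h3⟩
  · rw [← hL.isClosed.closure_eq, Metric.mem_closure_iff]
    intro ε hε
    obtain ⟨A, hA, h1, h2⟩ := h (ε / 4) (by positivity)
    obtain ⟨a, ha, hxa⟩ := h2 x hx
    obtain ⟨b, hb, hab⟩ := h1 _ (hA a ha)
    refine ⟨b, hb, ?_⟩
    have : dist (-x) (-a) = dist x a := dist_neg_neg x a
    linarith [dist_triangle (-x) (-a) b]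

/-- The minimiser, without fractions. -/
theorem exists_minimiser_vol (hn : 1 ≤ n) :
    ∃ K₀ : Set (E n), IsCompact K₀ ∧ Convex ℝ K₀ ∧ (interior K₀).Nonempty ∧
      ∀ K : Set (E n), IsCompact K → Convex ℝ K → (interior K).Nonempty →
        vol (projectionBody K₀) * vol K ^ (n - 1) ≤ vol (projectionBody K) * vol K₀ ^ (n - 1) := by
  obtain ⟨K₀, h0, h⟩ := exists_minimiser hn
  refine ⟨K₀, h0.1, h0.2.1, h0.2.2, fun K hc hv hi => ?_⟩
  have hK : IsBody K := ⟨hc, hv, hi⟩
  exact (div_le_div_iff₀ (pow_pos (vol_pos h0) _) (pow_pos (vol_pos hK) _)).1 (h K hK)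

end Vale.Agent.P237.Three
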