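import Vale.Agent.P237.CylinderAssembly
import Vale.Agent.P237.Minkowski
import Vale.Agent.P237.ShadowBound
import Vale.Agent.P237.PrismBound
import Vale.Agent.P237.Cylinder
import Vale.Agent.P237.Asymp.Exact
import Vale.Agent.P237.Asymp.ZonoEntropy

/-!
P237: the Minkowski step for the iterated projection body, without surface measures.

The projection body of a polytope is the zonotope of its facet vectors, and `n` times the volume of
a zonotope bounds the lengths times the shadows. With Minkowski's first inequality and polytope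
approximation this gives `|Π Π K| |K|^(n-1) ≤ |Π K|^n`, and that the average of `K` with the
normalised `Π Π K` has no more volume than `K`.
-/

noncomputable section

open MeasureTheory Set Filter
open scoped RealInnerProductSpace ENNReal Topology Pointwise

namespace Vale.Agent.P237.Three.Iter

open Asymp

variable {n N : ℕ}

/-- A unit multiple of a vector. -/
def udir (x : E n) : E n := ‖x‖⁻¹ • x

lemma norm_udir {x : E n} (hx : x ≠ 0) : ‖udir x‖ = 1 := by
  rw [udir, norm_smul, norm_inv, norm_norm, inv_mul_cancel₀ (norm_ne_zero_iff.2 hx)]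

lemma norm_smul_udir (x : E n) : ‖x‖ • udir x = x := by
  rcases eq_or_ne x 0 with rfl | hx
  · simp
  · rw [udir, smul_inv_smul₀ (norm_ne_zero_iff.2 hx)]

lemma shadowBox_eq {Z : Set (E n)} {e : E n} (he : ‖e‖ = 1) :
    ZE.shadowBox e Z = shadowCylinder Z e := by
  ext x
  constructor
  · rintro ⟨⟨z, s⟩, ⟨hz, hs⟩, rfl⟩
    refine ⟨?_, ⟪e, z⟫ - s, ?_⟩
    · simp only [inner_add_right, inner_sub_right, real_inner_smul_right,
        real_inner_self_eq_norm_sq, he]
      simpa using hs
    · convert hz using 1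
      simp only
      module
  · rintro ⟨hx, s, hs⟩
    refine ⟨(x + s • e, ⟪e, x⟫), ⟨hs, hx⟩, ?_⟩
    simp only [inner_add_right, real_inner_smul_right, real_inner_self_eq_norm_sq, he]
    module

lemma vol_shadowBox {Z : Set (E n)} (hZ : IsCompact Z) {e : E n} (he : ‖e‖ = 1) :
    (volume (ZE.shadowBox e Z)).toReal = projArea Z e := by
  rw [shadowBox_eq he]; exact vol_shadowCylinder hZ he

lemma projArea_mono {K K' : Set (E n)} (hK' : IsCompact K') (h : K ⊆ K') (e : E n) :
    projArea K e ≤ projArea K' e :=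
  ENNReal.toReal_mono (hK'.image (ContinuousLinearMap.continuous _)).measure_lt_top.ne
    (measure_mono (image_mono h))

lemma projArea_smul (K : Set (E n)) {e : E n} (he : ‖e‖ = 1) {r : ℝ} (hr : 0 ≤ r) :
    projArea (r • K) e = r ^ (n - 1) * projArea K e := by
  have hfr : Module.finrank ℝ ((ℝ ∙ e)ᗮ : Submodule ℝ (E n)) = n - 1 := by
    have h1 := (ℝ ∙ e).finrank_add_finrank_orthogonal
    rw [finrank_span_singleton (fun h : e = 0 => by simp [h] at he),
      finrank_euclideanSpace_fin] at h1
    omega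
  rw [projArea, projArea, image_smul_set, Measure.addHaar_smul_of_nonneg _ hr, hfr,
    ENNReal.toReal_mul, ENNReal.toReal_ofReal (pow_nonneg hr _)]

/-- Scaled inclusion of bodies gives scaled inclusion of projection bodies. -/
lemma projBody_subset_smul {K P : Set (E n)} (hP : IsCompact P) {r : ℝ} (hr : 0 < r)
    (h : K ⊆ r • P) : projBody K ⊆ r ^ (n - 1) • projBody P := by
  intro y hy
  rw [mem_smul_set_iff_inv_smul_mem₀ (pow_pos hr _).ne']
  intro u hu
  rw [real_inner_smul_left, inv_mul_le_iff₀ (pow_pos hr _)]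
  exact (hy u hu).trans ((projArea_mono (hP.smul r) h u).trans_eq (projArea_smul P hu hr.le))

lemma zero_mem_projBody (K : Set (E n)) : (0 : E n) ∈ projBody K := fun u _ => by
  simpa using projArea_nonneg K u

lemma convex_projBody (K : Set (E n)) : Convex ℝ (projBody K) := by
  intro x hx y hy s t hs ht hst u hu
  rw [inner_add_left, real_inner_smul_left, real_inner_smul_left]
  calc s * ⟪x, u⟫ + t * ⟪y, u⟫ ≤ s * projArea K u + t * projArea K u :=
        add_le_add (mul_le_mul_of_nonneg_left (hx u hu) hs) (mul_le_mul_of_nonneg_left (hy u hu) ht)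
    _ = projArea K u := by rw [← add_mul, hst, one_mul]

lemma isCompact_projBody (K : Set (E n)) : IsCompact (projBody K) := by
  refine Metric.isCompact_of_isClosed_isBounded ?_ (isBounded_projBody K)
  simp only [projBody, ofPred_forall]
  exact isClosed_iInter fun u => isClosed_iInter fun _ => isClosed_le (by fun_prop) continuous_const

/-- The facet vectors of `Poly v 1`. -/
def fvec (v : Fin N → E n) (i : Fin N) : E n := ((n : ℝ) * coneVol v i) • v i

/-- The value at `v i` of the support function of the projection body of `L`. -/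
def reach (v : Fin N → E n) (L : Set (E n)) (i : Fin N) : ℝ := ‖v i‖ * projArea L (udir (v i))

lemma reach_nonneg (v : Fin N → E n) (L : Set (E n)) (i : Fin N) : 0 ≤ reach v L i :=
  mul_nonneg (norm_nonneg _) (projArea_nonneg _ _)

lemma projBody_subset_poly (v : Fin N → E n) (L : Set (E n)) :
    projBody L ⊆ Poly v (reach v L) := by
  intro y hy i
  rw [reach]
  rcases eq_or_ne (v i) 0 with h | h
  · simp [h]
  · calc ⟪v i, y⟫ = ‖v i‖ * ⟪y, udir (v i)⟫ := by
          rw [← real_inner_smul_right, norm_smul_udir, real_inner_comm]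
      _ ≤ _ := mul_le_mul_of_nonneg_left (hy _ (norm_udir h)) (norm_nonneg _)

section Polytope

variable {v : Fin N → E n}

/-- The upper half of Cauchy's formula for a polytope. -/
lemma projArea_poly_le (hn : 0 < n) (hv : Function.Injective v)
    (hb : Bornology.IsBounded (Poly v fun _ => 1)) {e : E n} (he : ‖e‖ = 1) :
    projArea (Poly v fun _ => 1) e ≤ ∑ i, (n : ℝ) * coneVol v i * max ⟪v i, e⟫ 0 := by
  obtain ⟨k, rfl⟩ : ∃ k, n = k + 1 := ⟨n - 1, by omega⟩
  set P := Poly v fun _ => (1 : ℝ) with hP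
  have hPc : IsCompact P := Metric.isCompact_of_isClosed_isBounded (isClosed_Poly _ _) hb
  set m : Fin N → ℝ := fun i => max ⟪v i, e⟫ 0 with hm
  have hm0 : ∀ i, 0 ≤ m i := fun i => le_max_right _ _
  have hc0 : ∀ i, 0 ≤ coneVol v i := fun i => ENNReal.toReal_nonneg
  have key : ∀ t : ℝ, 0 < t → projArea P e
      ≤ ∑ i, ((k + 1 : ℕ) : ℝ) * coneVol v i * m i * (1 + t * m i) ^ (k + 1) := by
    intro t ht
    set c : Fin N → ℝ := fun i => 1 + t * m i
    have hcp : ∀ i, 0 < c i := fun i => by have := hm0 i; positivity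
    obtain ⟨hcb, hcv⟩ := volume_enlarged_le v hn hb hcp
    have hCc : IsCompact (Poly v c) :=
      Metric.isCompact_of_isClosed_isBounded (isClosed_Poly _ _) hcb
    have h := ZE.volume_add_segment hPc hCc he ht.le (by
      intro z hz s hs i
      rw [inner_add_right, real_inner_smul_right, real_inner_smul_right]
      have h1 : ⟪v i, e⟫ ≤ m i := le_max_left _ _
      have h2 : s * (t * ⟪v i, e⟫) ≤ t * m i :=
        calc s * (t * ⟪v i, e⟫) ≤ s * (t * m i) := by have := hs.1; gcongr
          _ ≤ 1 * (t * m i) := mul_le_mul_of_nonneg_right hs.2 (mul_nonneg ht.le (hm0 i))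
          _ = _ := one_mul _
      exact add_le_add (hz i) h2)
    have h' := ENNReal.toReal_mono hCc.measure_lt_top.ne h
    rw [ENNReal.toReal_add hPc.measure_lt_top.ne (ENNReal.mul_ne_top ENNReal.ofReal_ne_top
      (ZE.isCompact_shadowBox e hPc).measure_lt_top.ne), ENNReal.toReal_mul,
      ENNReal.toReal_ofReal ht.le, vol_shadowBox hPc he] at h'
    have hsum : ∑ i, c i ^ (k + 1) * coneVol v i ≤ ∑ i, coneVol v i
        + t * ∑ i, ((k + 1 : ℕ) : ℝ) * coneVol v i * m i * (1 + t * m i) ^ (k + 1) := by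
      rw [Finset.mul_sum, ← Finset.sum_add_distrib]
      refine Finset.sum_le_sum fun i _ => ?_
      have h3 := mul_le_mul_of_nonneg_right (ZE.pow_sub_one_le (mul_nonneg ht.le (hm0 i)) (k + 1))
        (hc0 i)
      simp only [c]
      linarith
    refine le_of_mul_le_mul_left ?_ ht
    have h4 := sum_coneVol_le' hv hb
    linarith
  have hcont : Continuous fun t : ℝ =>
      ∑ i, ((k + 1 : ℕ) : ℝ) * coneVol v i * m i * (1 + t * m i) ^ (k + 1) := by fun_prop
  have := ge_of_tendsto ((hcont.tendsto 0).mono_left (nhdsWithin_le_nhds (s := Ioi 0)))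
    (eventually_nhdsWithin_of_forall fun t ht => key t ht)
  simpa using this

/-- The zonotope of the facet vectors lies in the projection body. -/
lemma zono_subset_projBody (hn : 0 < n) (hv : Function.Injective v)
    (hb : Bornology.IsBounded (Poly v fun _ => 1)) :
    zono (fvec v) ⊆ projBody (Poly v fun _ => 1) := by
  rintro z ⟨l, hl, rfl⟩ u hu
  have hPc : IsCompact (Poly v fun _ => (1 : ℝ)) :=
    Metric.isCompact_of_isClosed_isBounded (isClosed_Poly _ _) hb
  have h1 := (prismBound n N v u hn hv hb).trans (shadowBound n _ u hPc (convex_Poly _ _) hu)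
  rw [ENNReal.ofReal_le_ofReal_iff (projArea_nonneg _ _)] at h1
  refine le_trans ?_ h1
  rw [sum_inner]
  refine Finset.sum_le_sum fun i _ => ?_
  have hli := hl i (mem_univ i)
  have hc : 0 ≤ (n : ℝ) * coneVol v i := mul_nonneg (by positivity) ENNReal.toReal_nonneg
  simp only [fvec, real_inner_smul_left]
  calc l i * ((n : ℝ) * coneVol v i * ⟪v i, u⟫)
      ≤ l i * ((n : ℝ) * coneVol v i * max ⟪v i, u⟫ 0) := by
        have := hli.1; gcongr; exact le_max_left _ _
    _ ≤ 1 * ((n : ℝ) * coneVol v i * max ⟪v i, u⟫ 0) :=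
        mul_le_mul_of_nonneg_right hli.2 (mul_nonneg hc (le_max_right _ _))
    _ = _ := one_mul _

/-- The projection body of a polytope lies in the zonotope of its facet vectors. -/
lemma projBody_poly_subset (hn : 0 < n) (hv : Function.Injective v)
    (hb : Bornology.IsBounded (Poly v fun _ => 1)) :
    projBody (Poly v fun _ => 1) ⊆ zono (fvec v) := by
  intro y hy
  by_contra hny
  have hZc : Convex ℝ (zono (fvec v)) :=
    (convex_pi fun _ _ => convex_Icc (0 : ℝ) 1).is_linear_image
      ⟨fun x y => by simp [add_smul, Finset.sum_add_distrib],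
        fun a x => by simp [Finset.smul_sum, smul_smul]⟩
  obtain ⟨f, s, hf, hfy⟩ :=
    geometric_hahn_banach_closed_point hZc (isCompact_zono _).isClosed hny
  set w := (InnerProductSpace.toDual ℝ (E n)).symm f with hw
  have hfw : ∀ x, f x = ⟪w, x⟫ := fun x => by
    rw [hw, InnerProductSpace.toDual_symm_apply]
  set l : Fin N → ℝ := fun i => if 0 ≤ ⟪fvec v i, w⟫ then 1 else 0
  have hlz : (∑ i, l i • fvec v i) ∈ zono (fvec v) :=
    ⟨l, fun i _ => by simp only [l]; split_ifs <;> constructor <;> norm_num, rfl⟩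
  have hlt : ⟪w, ∑ i, l i • fvec v i⟫ < ⟪w, y⟫ := by
    rw [← hfw, ← hfw]; exact (hf _ hlz).trans hfy
  rcases eq_or_ne w 0 with h0 | h0
  · simp [h0] at hlt
  have hu := norm_udir h0
  have h1 := mul_le_mul_of_nonneg_left ((hy _ hu).trans (projArea_poly_le hn hv hb hu))
    (norm_nonneg w)
  rw [← real_inner_smul_right, norm_smul_udir, real_inner_comm, Finset.mul_sum] at h1
  refine absurd (h1.trans_eq ?_) (not_le.2 hlt)
  rw [inner_sum]
  refine Finset.sum_congr rfl fun i _ => ?_
  have hc : 0 ≤ (n : ℝ) * coneVol v i := mul_nonneg (by positivity) ENNReal.toReal_nonneg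
  have he : ⟪fvec v i, w⟫ = ‖w‖ * ((n : ℝ) * coneVol v i * ⟪v i, udir w⟫) := by
    conv_lhs => rw [← norm_smul_udir w]
    rw [fvec, real_inner_smul_left, real_inner_smul_right]
    ring
  rw [real_inner_smul_right, real_inner_comm (fvec v i) w]
  simp only [l]
  split_ifs with hs
  · rw [one_mul, he]
    rcases le_or_gt 0 ⟪v i, udir w⟫ with hp | hp
    · rw [max_eq_left hp]
    · rw [max_eq_right hp.le, mul_zero, mul_zero]
      rw [he] at hs
      exact le_antisymm hs (mul_nonpos_of_nonneg_of_nonpos (norm_nonneg _)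
        (mul_nonpos_of_nonneg_of_nonpos hc hp.le))
  · rw [zero_mul]
    rw [he] at hs
    rw [max_eq_right, mul_zero, mul_zero]
    by_contra hp
    exact hs (mul_nonneg (norm_nonneg _) (mul_nonneg hc (not_le.1 hp).le))

/-- The mixed volume of a polytope inside `K` with the iterated projection body of `K`. -/
lemma sum_reach_le (hn : 0 < n) (hv : Function.Injective v)
    (hb : Bornology.IsBounded (Poly v fun _ => 1)) {K : Set (E n)} (hK : IsCompact K)
    (hPK : (Poly v fun _ => 1) ⊆ K) {r : ℝ} (hr : 0 < r) (hKP : K ⊆ r • Poly v fun _ => 1) :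
    ∑ i, coneVol v i * reach v (projBody K) i
      ≤ (r ^ (n - 1)) ^ (n - 1) * (volume (projBody K)).toReal := by
  obtain ⟨k, rfl⟩ : ∃ k, n = k + 1 := ⟨n - 1, by omega⟩
  set P := Poly v fun _ => (1 : ℝ)
  have hPc : IsCompact P := Metric.isCompact_of_isClosed_isBounded (isClosed_Poly _ _) hb
  set Z := zono (fvec v)
  have hZc : IsCompact Z := isCompact_zono _
  set ρ := r ^ (k + 1 - 1) with hρ
  have hρ0 : 0 < ρ := pow_pos hr _
  have hsub : projBody K ⊆ ρ • Z :=
    (projBody_subset_smul hPc hr hKP).trans (smul_set_mono (projBody_poly_subset hn hv hb))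
  set L : Fin N → ℝ := fun i => ((k + 1 : ℕ) : ℝ) * coneVol v i * ‖v i‖ with hL
  have hL0 : ∀ i, 0 ≤ L i := fun i =>
    mul_nonneg (mul_nonneg (Nat.cast_nonneg _) ENNReal.toReal_nonneg) (norm_nonneg _)
  have hne : ∀ i, L i ≠ 0 → v i ≠ 0 := fun i hi h => hi (by simp [hL, h])
  have hsum := ZE.sum_shadow_le (fvec v) (fun i => udir (v i)) L
    (fun i hi => norm_udir (hne i hi)) hL0
    (fun i => by
      simp only [hL, fvec, mul_smul]
      rw [norm_smul_udir])
  have hterm : ∀ i, ((k + 1 : ℕ) : ℝ) * (coneVol v i * reach v (projBody K) i) ≤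
      ρ ^ (k + 1 - 1) * (L i * (volume (ZE.shadowBox (udir (v i)) Z)).toReal) := by
    intro i
    rcases eq_or_ne (L i) 0 with h0 | h0
    · have h1 : ((k + 1 : ℕ) : ℝ) * (coneVol v i * reach v (projBody K) i)
          = L i * projArea (projBody K) (udir (v i)) := by
        simp only [hL, reach]; ring
      rw [h1, h0]; simp
    have hu := norm_udir (hne i h0)
    rw [vol_shadowBox hZc hu, show ρ ^ (k + 1 - 1) * (L i * projArea Z (udir (v i)))
        = L i * projArea (ρ • Z) (udir (v i)) by rw [projArea_smul Z hu hρ0.le]; ring]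
    refine le_trans (le_of_eq ?_)
      (mul_le_mul_of_nonneg_left (projArea_mono (hZc.smul ρ) hsub _) (hL0 i))
    simp only [hL, reach]; ring
  have hvolZ : (volume Z).toReal ≤ (volume (projBody K)).toReal :=
    ENNReal.toReal_mono (isBounded_projBody K).measure_lt_top.ne
      (measure_mono ((zono_subset_projBody hn hv hb).trans (projBody_mono hK hPK)))
  have hfin := (Finset.sum_le_sum (s := Finset.univ) fun i _ => hterm i).trans
    (le_of_eq (Finset.mul_sum _ _ _).symm)
  rw [← Finset.mul_sum] at hfin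
  have h2 := hfin.trans (mul_le_mul_of_nonneg_left hsum (pow_nonneg hρ0.le _))
  have hk : (0 : ℝ) < ((k + 1 : ℕ) : ℝ) := by positivity
  refine le_of_mul_le_mul_left ?_ hk
  have h3 := mul_le_mul_of_nonneg_left hvolZ (mul_nonneg (pow_nonneg hρ0.le (k + 1 - 1)) hk.le)
  linarith

end Polytope

/-- A body with the origin inside is caught between a polytope and its dilate. -/
lemma exists_sandwich (hn : 0 < n) {K : Set (E n)} (hK : IsCompact K) (hc : Convex ℝ K)
    (h0 : (0 : E n) ∈ interior K) {δ : ℝ} (hδ : 0 < δ) :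
    ∃ (M : ℕ) (w : Fin M → E n), Function.Injective w ∧
      Bornology.IsBounded (Poly w fun _ => 1) ∧ (Poly w fun _ => 1) ⊆ K ∧
      K ⊆ (1 + δ) • Poly w fun _ => 1 := by
  obtain ⟨M, v, hv, -, hKv, hvK⟩ := exists_polytope (N := 1) hK hc h0 (fun _ => ⊤)
    (fun _ => K) (iInter_const _).symm (fun _ => hK.isClosed) (fun _ => hc)
    (fun _ x hx y hy => by
      rw [Submodule.top_orthogonal_eq_bot, Submodule.mem_bot] at hy
      simpa [hy] using hx) hδ
  set c := 1 + δ
  have hc0 : 0 < c := by positivity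
  set w := fun i => c • v i with hw
  have hsubK : Poly w (fun _ => 1) ⊆ K := by
    intro x hx
    have hcx : c • x ∈ Poly v fun _ => 1 := fun i => by
      have := hx i
      rwa [hw, real_inner_smul_left, ← real_inner_smul_right] at this
    exact (smul_mem_smul_set_iff₀ hc0.ne' K x).1 (hvK hcx)
  refine ⟨M, w, fun a b h => hv (smul_right_injective (E n) hc0.ne' h),
    hK.isBounded.subset hsubK, hsubK, fun x hx => ⟨c⁻¹ • x, fun i => ?_, smul_inv_smul₀ hc0.ne' x⟩⟩
  rw [hw, real_inner_smul_left, real_inner_smul_right, ← mul_assoc, mul_inv_cancel₀ hc0.ne',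
    one_mul]
  exact hKv x hx i

lemma vol_le_smul {K P : Set (E n)} (hP : IsCompact P) {c : ℝ} (hc : 0 ≤ c) (h : K ⊆ c • P) :
    (volume K).toReal ≤ c ^ n * (volume P).toReal := by
  refine (ENNReal.toReal_mono (hP.smul c).measure_lt_top.ne (measure_mono h)).trans (le_of_eq ?_)
  rw [Measure.addHaar_smul_of_nonneg _ hc, ENNReal.toReal_mul, finrank_euclideanSpace_fin,
    ENNReal.toReal_ofReal (pow_nonneg hc _)]

/-- Minkowski's inequality for a body against its iterated projection body and itself. -/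
lemma minkowski_iter (hn : 0 < n) {K : Set (E n)} (hK : IsCompact K) (hc : Convex ℝ K)
    (h0 : (0 : E n) ∈ interior K) {M : Set (E n)} (hM : IsCompact M) (hMc : Convex ℝ M)
    (hM0 : (0 : E n) ∈ M) {α β : ℝ} (hα : 0 ≤ α) (hβ : 0 ≤ β)
    (hsub : M ⊆ α • K + β • projBody (projBody K)) :
    vol M * vol K ^ (n - 1) ≤ (α * vol K + β * vol (projBody K)) ^ n := by
  have key : ∀ δ : ℝ, 0 < δ → vol M * (vol K / (1 + δ) ^ n) ^ (n - 1)
      ≤ (α * (1 + δ) * vol K + β * (((1 + δ) ^ (n - 1)) ^ (n - 1) * vol (projBody K))) ^ n := by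
    intro δ hδ
    obtain ⟨N, v, hv, hb, hPK, hKP⟩ := exists_sandwich hn hK hc h0 hδ
    set c := 1 + δ
    have hc0 : 0 < c := by positivity
    have hPc : IsCompact (Poly v fun _ => (1 : ℝ)) :=
      Metric.isCompact_of_isClosed_isBounded (isClosed_Poly _ _) hb
    set ρ : Fin N → ℝ := fun i => α * c + β * reach v (projBody K) i
    have hρ : ∀ i, 0 ≤ ρ i := fun i =>
      add_nonneg (mul_nonneg hα hc0.le) (mul_nonneg hβ (reach_nonneg _ _ _))
    have hMsub : M ⊆ Poly v ρ := by
      intro y hy i
      obtain ⟨_, ⟨x, hx, rfl⟩, _, ⟨z, hz, rfl⟩, rfl⟩ := hsub hy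
      obtain ⟨p, hp, rfl⟩ := hKP hx
      simp only [inner_add_right, real_inner_smul_right]
      refine add_le_add (mul_le_mul_of_nonneg_left ?_ hα)
        (mul_le_mul_of_nonneg_left (projBody_subset_poly v _ hz i) hβ)
      exact (mul_le_mul_of_nonneg_left (hp i) hc0.le).trans_eq (mul_one _)
    have h1 := minkowskiFirst n N v ρ M hn hv hb hρ hM hMc hM0 hMsub
    have hPlow : vol K / c ^ n ≤ (volume (Poly v fun _ => (1 : ℝ))).toReal := by
      rw [div_le_iff₀ (pow_pos hc0 n), mul_comm]
      exact vol_le_smul hPc hc0.le hKP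
    refine (mul_le_mul_of_nonneg_left (pow_le_pow_left₀
      (div_nonneg ENNReal.toReal_nonneg (pow_nonneg hc0.le n)) hPlow _)
      ENNReal.toReal_nonneg).trans (h1.trans (pow_le_pow_left₀
        (Finset.sum_nonneg fun i _ => mul_nonneg ENNReal.toReal_nonneg (hρ i)) ?_ n))
    calc ∑ i, coneVol v i * ρ i
        = α * c * ∑ i, coneVol v i + β * ∑ i, coneVol v i * reach v (projBody K) i := by
          simp only [ρ, Finset.mul_sum, ← Finset.sum_add_distrib]
          exact Finset.sum_congr rfl fun i _ => by ring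
      _ ≤ _ := add_le_add (mul_le_mul_of_nonneg_left ((sum_coneVol_le' hv hb).trans
            (ENNReal.toReal_mono hK.measure_lt_top.ne (measure_mono hPK))) (mul_nonneg hα hc0.le))
          (mul_le_mul_of_nonneg_left (sum_reach_le hn hv hb hK hPK hc0 hKP) hβ)
  have h1 : ContinuousAt (fun δ : ℝ => vol M * (vol K / (1 + δ) ^ n) ^ (n - 1)) 0 :=
    continuousAt_const.mul ((continuousAt_const.div (by fun_prop) (by simp)).pow _)
  have h2 : ContinuousAt (fun δ : ℝ =>
      (α * (1 + δ) * vol K + β * (((1 + δ) ^ (n - 1)) ^ (n - 1) * vol (projBody K))) ^ n) 0 := by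
    fun_prop
  have := le_of_tendsto_of_tendsto (h1.tendsto.mono_left (nhdsWithin_le_nhds (s := Ioi 0)))
    (h2.tendsto.mono_left nhdsWithin_le_nhds) (eventually_nhdsWithin_of_forall fun δ hδ => key δ hδ)
  simpa using this

lemma exists_centre {K : Set (E n)} (hK : IsCompact K) (hc : Convex ℝ K)
    (hi : (interior K).Nonempty) :
    ∃ (g : E n) (K' : Set (E n)), IsCompact K' ∧ Convex ℝ K' ∧ (0 : E n) ∈ interior K' ∧
      K = (fun y => g + y) '' K' ∧ vol K' = vol K ∧ projBody K' = projBody K := by
  obtain ⟨g, hg⟩ := hi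
  set K' := (fun y => g + y) ⁻¹' K with hK'
  have himg : (fun y => g + y) '' K' = K := image_preimage_eq K (add_left_surjective g)
  refine ⟨g, K', (Homeomorph.addLeft g).isCompact_preimage.2 hK, ?_, ?_, himg.symm, ?_, ?_⟩
  · simpa [hK', add_comm] using hc.translate_preimage_left g
  · have h : interior K' = (fun y => g + y) ⁻¹' interior K :=
      ((Homeomorph.addLeft g).preimage_interior K).symm
    rw [h]; simpa using hg
  · rw [hK', vol, vol, measure_preimage_add]
  · conv_rhs => rw [← himg, projBody_vadd]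

/-- Minkowski's inequality at the iterated projection body: `R (Π K) ≤ R K`. -/
theorem proj_iter_le (hn : 0 < n) {K : Set (E n)} (hK : IsCompact K) (hc : Convex ℝ K)
    (hi : (interior K).Nonempty) :
    vol (projBody (projBody K)) * vol K ^ (n - 1) ≤ vol (projBody K) ^ n := by
  obtain ⟨g, K', hK', hc', h0, -, hvol, hpb⟩ := exists_centre hK hc hi
  rw [← hvol, ← hpb]
  have := minkowski_iter hn hK' hc' h0 (M := projBody (projBody K')) (isCompact_projBody _)
    (convex_projBody _) (zero_mem_projBody _) (α := 0) (β := 1) le_rfl zero_le_one (by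
      intro y hy
      exact ⟨0, ⟨0, interior_subset h0, by simp⟩, y, ⟨y, hy, one_smul _ _⟩, zero_add y⟩)
  simpa using this

/-- The average of a body and its normalised iterated projection body has no larger volume. -/
theorem mid_vol_le (hn : 0 < n) {K : Set (E n)} (hK : IsCompact K) (hc : Convex ℝ K)
    (hi : (interior K).Nonempty) (hpos : 0 < vol (projBody K)) :
    vol ((1 / 2 : ℝ) • (K + (vol K / vol (projBody K)) • projBody (projBody K))) ≤ vol K := by
  obtain ⟨g, K', hK', hc', h0, himg, hvol, hpb⟩ := exists_centre hK hc hi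
  rw [← hvol, ← hpb]
  rw [← hpb] at hpos
  set s := vol K' / vol (projBody K')
  set L := projBody (projBody K')
  have hs : 0 ≤ s := div_nonneg ENNReal.toReal_nonneg hpos.le
  have hM : IsCompact ((1 / 2 : ℝ) • (K' + s • L)) :=
    (hK'.add ((isCompact_projBody _).smul s)).smul _
  have h := minkowski_iter hn hK' hc' h0 (M := (1 / 2 : ℝ) • (K' + s • L)) hM
    ((hc'.add ((convex_projBody _).smul s)).smul _)
    ⟨0, ⟨0, interior_subset h0, 0, ⟨0, zero_mem_projBody _, smul_zero _⟩, add_zero 0⟩, smul_zero _⟩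
    (α := 1 / 2) (β := 1 / 2 * s) (by norm_num) (mul_nonneg (by norm_num) hs) (by
      rw [smul_add, smul_smul])
  rw [show 1 / 2 * vol K' + 1 / 2 * s * vol (projBody K') = vol K' by
    rw [mul_assoc, div_mul_cancel₀ _ hpos.ne']; ring] at h
  have hset : vol ((1 / 2 : ℝ) • (K + s • L)) = vol ((1 / 2 : ℝ) • (K' + s • L)) := by
    have : (1 / 2 : ℝ) • (K + s • L) = ((1 / 2 : ℝ) • g) +ᵥ ((1 / 2 : ℝ) • (K' + s • L)) := by
      rw [himg, show (fun y => g + y) '' K' = {g} + K' from singleton_add.symm,
        ← singleton_vadd, add_assoc, smul_add, smul_set_singleton]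
      rfl
    rw [this, vol, measure_vadd, vol]
  rw [hset]
  have hk : 0 < vol K' := ENNReal.toReal_pos
    (Measure.measure_pos_of_nonempty_interior volume ⟨0, h0⟩).ne' hK'.measure_lt_top.ne
  refine le_of_mul_le_mul_right (h.trans_eq ?_) (pow_pos hk (n - 1))
  rw [← pow_succ', Nat.sub_add_cancel hn]

end Vale.Agent.P237.Three.Iter
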