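import Vale.Agent.P237.Three.Pins
import Vale.Agent.P237.Three.Fixed
import Vale.Agent.P237.Sharp.Ellipsoid

/-!
P237, dimension three, sections 4.0 to 4.2: the shadow volume is the support function of the
projection body, and the class reduction with its equality case.
-/

noncomputable section

open MeasureTheory Set Filter Metric
open scoped RealInnerProductSpace Topology Pointwise

namespace Vale.Agent.P237.Three

open Iter

variable {n : ℕ}

lemma projArea_neg (K : Set (E n)) (u : E n) : projArea K (-u) = projArea K u := by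
  simp only [projArea]
  exact congrArg (fun V : Submodule ℝ (E n) => (volume (Vᗮ.orthogonalProjectionOnto '' K)).toReal)
    (Submodule.span_singleton_eq_span_singleton.2 ⟨-1, by simp⟩)

lemma projBody_symm {K : Set (E n)} {y : E n} (hy : y ∈ projBody K) : -y ∈ projBody K := by
  intro u hu
  rw [inner_neg_left, ← inner_neg_right, ← projArea_neg]
  exact hy (-u) (by simpa using hu)

lemma body_projBody (_hn : 1 ≤ n) {K : Set (E n)} (hK : IsCompact K)
    (hi : (interior K).Nonempty) :
    IsCompact (projBody K) ∧ Convex ℝ (projBody K) ∧ (interior (projBody K)).Nonempty := by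
  refine ⟨isCompact_projBody K, convex_projBody K, ?_⟩
  obtain ⟨g, hg⟩ := hi
  obtain ⟨ε, hε, hball⟩ := Metric.mem_nhds_iff.1 (mem_interior_iff_mem_nhds.1 hg)
  have hsub : (ε / 2) • closedBall ((ε / 2)⁻¹ • g) 1 ⊆ K := by
    rw [smul_closedBall' (by positivity), smul_inv_smul₀ (by positivity),
      Real.norm_of_nonneg (by positivity), mul_one]
    exact (closedBall_subset_ball (by linarith)).trans hball
  set ρ := (ε / 2) ^ (n - 1) * kappa (n - 1) with hρ
  have hρ0 : 0 < ρ := mul_pos (by positivity) (Sharp.kappa_pos' _)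
  have hin : ball (0 : E n) ρ ⊆ projBody K := by
    intro y hy u hu
    rw [mem_ball_zero_iff] at hy
    calc ⟪y, u⟫ ≤ ‖y‖ * ‖u‖ := real_inner_le_norm _ _
      _ ≤ ρ := by rw [hu, mul_one]; exact hy.le
      _ ≤ projArea K u := by
        have h := Iter.projArea_mono hK hsub u
        rwa [Iter.projArea_smul _ hu (by positivity), Sharp.projArea_closedBall _ hu] at h
  exact ⟨0, interior_maximal hin isOpen_ball (mem_ball_self hρ0)⟩

/-- The shadow volume is the support function of the projection body. -/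
lemma isLUB_projBody (hn : 1 ≤ n) {K : Set (E n)} (hK : IsCompact K) (hc : Convex ℝ K)
    (hi : (interior K).Nonempty) {u : E n} (hu : ‖u‖ = 1) :
    IsLUB ((fun x => ⟪x, u⟫) '' projBody K) (projArea K u) := by
  obtain ⟨g, K', hK', hc', h0, himg, -, hpb⟩ := exists_centre hK hc hi
  rw [← hpb, himg, projArea_vadd]
  refine ⟨by rintro _ ⟨y, hy, rfl⟩; exact hy u hu, fun b hb => ?_⟩
  have key : ∀ δ : ℝ, 0 < δ → projArea K' u ≤ (1 + δ) ^ (n - 1) * b := by
    intro δ hδ
    obtain ⟨N, v, hv, hbd, hPK, hKP⟩ := exists_sandwich hn hK' hc' h0 hδ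
    have hPc : IsCompact (Poly v fun _ => (1 : ℝ)) :=
      Metric.isCompact_of_isClosed_isBounded (isClosed_Poly _ _) hbd
    set l : Fin N → ℝ := fun i => if 0 ≤ ⟪fvec v i, u⟫ then 1 else 0
    have hz : (∑ i, l i • fvec v i) ∈ zono (fvec v) :=
      ⟨l, fun i _ => by simp only [l]; split_ifs <;> constructor <;> norm_num, rfl⟩
    have hzv : ∑ i, (n : ℝ) * coneVol v i * max ⟪v i, u⟫ 0 = ⟪∑ i, l i • fvec v i, u⟫ := by
      rw [sum_inner]
      refine Finset.sum_congr rfl fun i _ => ?_
      have hc0 : 0 ≤ (n : ℝ) * coneVol v i := mul_nonneg (by positivity) ENNReal.toReal_nonneg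
      simp only [l, fvec, real_inner_smul_left]
      split_ifs with hs
      · rw [one_mul]
        rcases le_or_gt 0 ⟪v i, u⟫ with hp | hp
        · rw [max_eq_left hp]
        · rw [max_eq_right hp.le, mul_zero]
          exact le_antisymm hs (mul_nonpos_of_nonneg_of_nonpos hc0 hp.le)
      · rw [zero_mul, max_eq_right, mul_zero]
        by_contra hp
        exact hs (mul_nonneg hc0 (not_le.1 hp).le)
    have hzb := hb ⟨_, projBody_mono hK' hPK (zono_subset_projBody hn hv hbd hz), rfl⟩
    refine (Iter.projArea_mono (hPc.smul _) hKP u).trans ?_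
    rw [Iter.projArea_smul _ hu (by positivity)]
    refine mul_le_mul_of_nonneg_left ((projArea_poly_le hn hv hbd hu).trans ?_) (by positivity)
    rw [hzv]
    exact hzb
  have hcont : ContinuousAt (fun δ : ℝ => (1 + δ) ^ (n - 1) * b) 0 := by fun_prop
  have := ge_of_tendsto (hcont.tendsto.mono_left (nhdsWithin_le_nhds (s := Ioi 0)))
    (eventually_nhdsWithin_of_forall fun δ hδ => key δ hδ)
  simpa using this

/-- `SupportStmt`. -/
theorem supportStmt : SupportStmt := by
  intro K ⟨hK, hc, hi⟩
  rw [projectionBody_eq hK]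
  refine ⟨body_projBody (by norm_num) hK hi, fun y hy => projBody_symm hy, fun u hu => ?_⟩
  rw [vol_shadowCylinder hK hu, supp]
  exact (isLUB_projBody (by norm_num) hK hc hi hu).csSup_eq
    ⟨0, 0, zero_mem_projBody K, inner_zero_left u⟩

/-- `ReductionStmt`. -/
theorem reductionStmt : ReductionStmt := by
  intro K ⟨hK, hc, hi⟩
  simp only
  rw [projectionBody_eq hK]
  set Z := projBody K with hZ
  obtain ⟨hZc, hZx, hZi⟩ := body_projBody (by norm_num : 1 ≤ 3) hK hi
  rw [projectionBody_eq hZc]
  refine ⟨proj_iter_le (by norm_num) hK hc hi, fun heq => ?_⟩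
  have hv : ∀ {S : Set (E 3)}, IsCompact S → (interior S).Nonempty → 0 < vol S := fun hS hSi =>
    ENNReal.toReal_pos (Measure.measure_pos_of_nonempty_interior volume hSi).ne'
      hS.measure_lt_top.ne
  obtain ⟨hLc, hLx, hLi⟩ := body_projBody (by norm_num : 1 ≤ 3) hZc hZi
  have hk := hv hK hi
  have hz : 0 < vol Z := hv hZc hZi
  have hl := hv hLc hLi
  set s := vol K / vol Z with hs
  have hs0 : 0 < s := div_pos hk hz
  rw [show (2⁻¹ : ℝ) = 1 / 2 by norm_num]
  refine le_antisymm (mid_vol_le (by norm_num) hK hc hi hz) ?_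
  have hsL : vol (s • projBody Z) = s ^ 3 * vol (projBody Z) := Sharp.vol_smul hs0.le _
  have hbig : vol K ≤ vol (s • projBody Z) := by
    rw [hsL, hs, div_pow, div_mul_eq_mul_div, le_div_iff₀ (pow_pos hz 3)]
    nlinarith [mul_le_mul_of_nonneg_left heq hk.le]
  have hbm := Sharp.bm_euclid (n := 3) (by norm_num) hK (hLc.smul s)
    ((hK.add (hLc.smul s)).smul (1 / 2 : ℝ)) hc (hLx.smul s) hk (hk.trans_le hbig)
    (l := 1 / 2) (μ := 1 / 2) (by norm_num) (by norm_num) (by norm_num)
    fun z hz' w hw => ⟨z + w, add_mem_add hz' hw, smul_add _ _ _⟩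
  refine le_trans ?_ hbm
  have hroot := Real.rpow_inv_natCast_pow hk.le (show 3 ≠ 0 by norm_num)
  conv_lhs => rw [← hroot]
  refine pow_le_pow_left₀ (Real.rpow_nonneg hk.le _) ?_ 3
  linarith [Real.rpow_le_rpow hk.le hbig (by positivity : (0 : ℝ) ≤ ((3 : ℕ) : ℝ)⁻¹)]

end Vale.Agent.P237.Three
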