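import Vale.Agent.P237.Three.Cylinder3
import Mathlib.Analysis.SumIntegralComparisons

/-!
P237, dimension three: the shadow of the projection body is large (section 2.4 of the proof note).
-/

noncomputable section

open MeasureTheory Set Real
open scoped Pointwise RealInnerProductSpace

namespace Vale.Agent.P237.Three

/-- The band sums of turned difference bodies of the slices at the heights `(i+1) * d`. -/
def ring2 (K : Set (E 3)) (d : ℝ) : ℕ → Set (Fin 2 → ℝ)
  | 0 => {0}
  | k + 1 => ring2 K d k + (2 * d) • (quarter ''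
      (Sharp.slice0 (coords K) ((k + 1 : ℕ) * d) + -Sharp.slice0 (coords K) ((k + 1 : ℕ) * d)))

theorem coords_body {K : Set (E 3)} (hK : Body3 K) : IsCompact (coords K) ∧ Convex ℝ (coords K) :=
  ⟨(PiLp.homeomorph 2 _).symm.isCompact_preimage.2 hK.1,
    hK.2.1.linear_preimage (WithLp.linearEquiv 2 ℝ (Fin 3 → ℝ)).symm.toLinearMap⟩

theorem slice_nonempty {K : Set (E 3)} (hb : Metric.closedBall (0 : E 3) 1 ⊆ K) {t : ℝ}
    (ht : |t| ≤ 1) : (Sharp.slice0 (coords K) t).Nonempty := by
  refine ⟨0, mem_slice0.2 (hb ?_)⟩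
  rw [Metric.mem_closedBall, dist_zero_right]
  have : ‖lift t 0‖ = |t| := by
    rw [EuclideanSpace.norm_eq, Fin.sum_univ_three]
    simp [lift, cons_two, Real.sqrt_sq_eq_abs]
  linarith

theorem profile_zero_le (K : Set (E 3)) (z : ℝ) : 0 ≤ profile K z := by
  unfold profile; split <;> positivity

theorem ring2_props {K : Set (E 3)} (hP : Positioned K) {d : ℝ} (hd : 0 ≤ d) :
    ∀ k : ℕ, (k : ℝ) * d < 1 →
      IsCompact (ring2 K d k) ∧ Convex ℝ (ring2 K d k) ∧ (ring2 K d k).Nonempty ∧
        4 * √π * d * ∑ i ∈ Finset.range k, profile K ((i + 1 : ℕ) * d) ≤ √(area2 (ring2 K d k)) := by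
  intro k
  induction k with
  | zero => exact fun _ => ⟨isCompact_singleton, convex_singleton 0, singleton_nonempty 0, by simp [sqrt_nonneg]⟩
  | succ k ih =>
    intro hk
    obtain ⟨hRc, hRv, hRn, hR⟩ := ih (by
      refine lt_of_le_of_lt ?_ hk; push_cast; nlinarith)
    obtain ⟨hXc, hXv⟩ := coords_body hP.1
    set h := ((k + 1 : ℕ) : ℝ) * d
    set S := Sharp.slice0 (coords K) h
    have hh0 : 0 ≤ h := by positivity
    have hSn : S.Nonempty := slice_nonempty hP.2.2.1 (by rw [abs_of_nonneg hh0]; exact hk.le)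
    have hSc : IsCompact S := Sharp.isCompact_slice0 hXc h
    have hSv : Convex ℝ S := Sharp.convex_slice0 hXv h
    set D := S + -S
    have hDc : IsCompact D := hSc.add hSc.neg
    have hTc : IsCompact ((2 * d) • (quarter '' D)) :=
      (hDc.image (LinearMap.continuous_of_finiteDimensional quarter)).smul _
    have hTv : Convex ℝ ((2 * d) • (quarter '' D)) := ((hSv.add hSv.neg).linear_image quarter).smul _
    have hTn : ((2 * d) • (quarter '' D)).Nonempty := ((hSn.add hSn.neg).image _).smul_set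
    refine ⟨hRc.add hTc, hRv.add hTv, hRn.add hTn, ?_⟩
    refine le_trans ?_ (sqrt_area_add hRc hTc hRv hTv hRn hTn)
    rw [Finset.sum_range_succ, mul_add]
    refine add_le_add hR ?_
    rw [area2_smul (by linarith), area2_quarter, sqrt_mul (sq_nonneg _),
      sqrt_sq (by linarith)]
    have hf : profile K h = √(area2 S) / √π := by
      rw [profile, if_pos hk, sqrt_div' _ pi_pos.le]; rfl
    rw [hf]
    calc 4 * √π * d * (√(area2 S) / √π) = 2 * d * (2 * √(area2 S)) := by
          field_simp [sqrt_ne_zero'.2 pi_pos]; ring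
      _ ≤ _ := mul_le_mul_of_nonneg_left (area_diff hSc hSv hSn) (by linarith)

theorem ring2_le {K : Set (E 3)} (hP : Positioned K) {d : ℝ} (hd : 0 < d) {w : Fin 2 → ℝ}
    (hw : w 0 ^ 2 + w 1 ^ 2 = 1) : ∀ k : ℕ, ∀ y ∈ ring2 K d k,
      y 0 * w 0 + y 1 * w 1 ≤ (volume (coords (shadowCylinder K (lift 0 w)) ∩
        {x | x 0 ∈ Icc (-(k * d)) (k * d)})).toReal := by
  intro k
  induction k with
  | zero => rintro y rfl; simp
  | succ k ih =>
    rintro _ ⟨y, hy, _, ⟨_, ⟨_, ⟨a, ha, b, hb, rfl⟩, rfl⟩, rfl⟩, rfl⟩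
    have hlt : (k : ℝ) * d < (k + 1 : ℕ) * d := by push_cast; nlinarith
    refine le_trans ?_ (band_add hP.1.1 hP.1.2.1 hP.2.1 (by positivity) hlt ha
      (show -b ∈ _ from hb) hw)
    have h1 := ih y hy
    simp only [quarter_apply, Pi.add_apply, Pi.smul_apply, smul_eq_mul, Matrix.cons_val_zero,
      Matrix.cons_val_one, Pi.neg_apply, sub_neg_eq_add]
    have h2 : 2 * ((k + 1 : ℕ) * d - k * d) = 2 * d := by push_cast; ring
    rw [h2]
    nlinarith [mul_le_mul_of_nonneg_left (le_abs_self ((a 0 + b 0) * w 1 - (a 1 + b 1) * w 0))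
      (by linarith : (0 : ℝ) ≤ 2 * d)]

/-- A planar set all of whose directional values are below the shadow volumes lies in the shadow. -/
theorem area_le_supp (hsup : SupportStmt) {K : Set (E 3)} (hK : Body3 K) {P : Set (Fin 2 → ℝ)}
    (hPc : IsCompact P)
    (hP : ∀ y ∈ P, ∀ w : Fin 2 → ℝ, w 0 ^ 2 + w 1 ^ 2 = 1 →
      y 0 * w 0 + y 1 * w 1 ≤ vol (shadowCylinder K (lift 0 w))) :
    area2 P ≤ supp (projectionBody (projectionBody K)) (EuclideanSpace.single 0 1) := by
  obtain ⟨hZ, -, hZs⟩ := hsup K hK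
  have he : ‖EuclideanSpace.single (0 : Fin 3) (1 : ℝ)‖ = 1 := by simp
  obtain ⟨-, -, hLs⟩ := hsup _ hZ
  rw [hLs _ he]
  set Z := projectionBody K
  set T : Set (Fin 2 → ℝ) := (fun z : E 3 => ![z 1, z 2]) '' Z
  have hTc : IsCompact T := hZ.1.image (by fun_prop)
  have hTv : Convex ℝ T := by
    rintro _ ⟨x, hx, rfl⟩ _ ⟨y, hy, rfl⟩ p q hp hq hpq
    refine ⟨p • x + q • y, hZ.2.1 hx hy hp hq hpq, ?_⟩
    ext i; fin_cases i <;> simp
  have hPT : P ⊆ T := by
    intro y hy
    by_contra hyT
    obtain ⟨f, u, hu, hfy⟩ := geometric_hahn_banach_closed_point hTv hTc.isClosed hyT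
    set a : Fin 2 → ℝ := ![f (Pi.single 0 1), f (Pi.single 1 1)]
    have hf : ∀ v : Fin 2 → ℝ, f v = v 0 * a 0 + v 1 * a 1 := fun v => by
      have : v = v 0 • Pi.single 0 1 + v 1 • Pi.single 1 1 := by ext i; fin_cases i <;> simp
      conv_lhs => rw [this]
      simp [a]
    have hN : 0 < √(a 0 ^ 2 + a 1 ^ 2) := by
      refine sqrt_pos.2 (lt_of_le_of_ne (by positivity) fun h => ?_)
      have h0 : a 0 = 0 := by nlinarith [sq_nonneg (a 1)]
      have h1 : a 1 = 0 := by nlinarith [sq_nonneg (a 0)]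
      obtain ⟨z, hz⟩ := (body3_nonempty hZ).image (fun z : E 3 => ![z 1, z 2])
      have h2 := hu z hz
      rw [hf, h0, h1] at h2 hfy
      linarith
    set N := √(a 0 ^ 2 + a 1 ^ 2)
    set w : Fin 2 → ℝ := fun i => a i / N
    have hw : w 0 ^ 2 + w 1 ^ 2 = 1 := by
      simp only [w, div_pow, ← add_div]
      rw [sq_sqrt (by positivity), div_self]
      exact (sqrt_pos.1 hN).ne'
    have hn : ‖lift 0 w‖ = 1 := by
      rw [EuclideanSpace.norm_eq, Real.sqrt_eq_one]
      simpa [Fin.sum_univ_three, lift, cons_two] using hw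
    obtain ⟨z, hz, hze⟩ := exists_supp hZ.1 (body3_nonempty hZ) (lift 0 w)
    have h1 := hP y hy w hw
    rw [← hZs _ hn, ← hze] at h1
    have h2 := hu _ ⟨z, hz, rfl⟩
    rw [hf] at h2 hfy
    have h3 : ⟪z, lift 0 w⟫ = z 1 * w 0 + z 2 * w 1 := by
      simp [lift, PiLp.inner_apply, Fin.sum_univ_three, cons_two, mul_comm]
    rw [h3] at h1
    simp only [Matrix.cons_val_zero, Matrix.cons_val_one] at h2
    have h4 : ∀ r s : ℝ, r * w 0 + s * w 1 = (r * a 0 + s * a 1) / N := fun r s => by
      simp only [w]; ring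
    rw [h4, h4, div_le_div_iff_of_pos_right hN] at h1
    linarith
  set Q : Set (Fin 3 → ℝ) := {x | x 0 ∈ Icc (0 : ℝ) 1 ∧ Fin.tail x ∈ P}
  have hQm : MeasurableSet Q := (measurableSet_Icc.preimage (measurable_pi_apply 0)).inter
    (hPc.isClosed.measurableSet.preimage (measurable_pi_lambda _ fun i => measurable_pi_apply _))
  have hQvol : volume Q = volume P := by
    have h := Sharp.volume_below_eq hQm univ MeasurableSet.univ
    rw [Measure.restrict_univ] at h
    rw [show Q = Q ∩ {x | x 0 ∈ univ} by simp, h,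
      ← lintegral_add_compl _ (measurableSet_Icc (a := (0 : ℝ)) (b := 1))]
    have h1 : ∫⁻ t in Icc (0 : ℝ) 1, volume (Sharp.slice0 Q t) = volume P := by
      rw [setLIntegral_congr_fun measurableSet_Icc (g := fun _ => volume P) fun t ht => ?_]
      · simp
      · congr 1
        ext y
        exact ⟨fun h => by simpa [Q] using h.2, fun h => ⟨by simpa using ht, by simpa using h⟩⟩
    have h2 : ∫⁻ t in (Icc (0 : ℝ) 1)ᶜ, volume (Sharp.slice0 Q t) = 0 := by
      rw [setLIntegral_congr_fun measurableSet_Icc.compl (g := fun _ => 0) fun t ht => ?_]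
      · simp
      · convert measure_empty (μ := (volume : Measure (Fin 2 → ℝ)))
        ext y
        simpa [Q, Sharp.slice0] using fun h1 h2 => absurd (And.intro h1 h2) ht
    rw [h1, h2, add_zero]
  show (volume P).toReal ≤ _
  rw [← hQvol]
  refine ENNReal.toReal_mono (shadowCylinder_finite hZ.1 he).ne ?_
  rw [← (PiLp.volume_preserving_toLp _).measure_preimage
    (measurableSet_shadowCylinder hZ.1 he).nullMeasurableSet]
  refine measure_mono ?_
  rintro x ⟨hx0, hxP⟩
  obtain ⟨z, hz, hzx⟩ := hPT hxP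
  refine ⟨by simpa [EuclideanSpace.inner_single_left] using hx0, z 0 - x 0, ?_⟩
  refine mem_of_eq_of_mem ?_ hz
  have hz1 := congrFun hzx 0
  have hz2 := congrFun hzx 1
  ext i
  fin_cases i <;> simp_all [Fin.tail]

theorem shadow_of (hsup : SupportStmt) {K : Set (E 3)} (hP : Positioned K)
    (hanti : AntitoneOn (profile K) (Icc 0 1)) :
    16 * π * (∫ z in (0 : ℝ)..1, profile K z) ^ 2 ≤
      supp (projectionBody (projectionBody K)) (EuclideanSpace.single 0 1) := by
  set f := profile K
  set I := ∫ z in (0 : ℝ)..1, f z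
  set T := supp (projectionBody (projectionBody K)) (EuclideanSpace.single 0 1)
  have hstep : ∀ n : ℕ, 4 * √π * (I - f 0 / (n + 1)) ≤ √T := by
    intro n
    set d : ℝ := 1 / (n + 1)
    have hd : 0 < d := by positivity
    have hnd : (n : ℝ) * d < 1 := by
      rw [mul_one_div, div_lt_one (by positivity)]; linarith
    obtain ⟨hc, -, -, hlow⟩ := ring2_props hP hd.le n hnd
    have hT : √(area2 (ring2 K d n)) ≤ √T := sqrt_le_sqrt <| area_le_supp hsup hP.1 hc
      fun y hy w hw => by
        have hn : ‖lift 0 w‖ = 1 := by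
          rw [EuclideanSpace.norm_eq, Real.sqrt_eq_one]
          simpa [Fin.sum_univ_three, lift, cons_two] using hw
        exact (ring2_le hP hd hw n y hy).trans (band_le hP.1.1 hn _)
    refine le_trans ?_ (hlow.trans hT)
    rw [mul_assoc (4 * √π)]
    refine mul_le_mul_of_nonneg_left ?_ (by positivity)
    have hmaps : ∀ x ∈ Icc (0 : ℝ) (n + 1), x * d ∈ Icc (0 : ℝ) 1 := fun x hx =>
      ⟨mul_nonneg hx.1 hd.le, by
        rw [mul_one_div]; exact (div_le_one (by positivity)).2 hx.2⟩
    have hg : AntitoneOn (fun x => f (x * d)) (Icc (0 : ℝ) (0 + (n + 1 : ℕ))) := by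
      push_cast
      rw [zero_add]
      exact fun x hx y hy hxy =>
        hanti (hmaps x hx) (hmaps y hy) (mul_le_mul_of_nonneg_right hxy hd.le)
    have h := hg.integral_le_sum
    rw [intervalIntegral.integral_comp_mul_right _ hd.ne', Finset.sum_range_succ'] at h
    push_cast at h ⊢
    simp only [zero_add, zero_mul, smul_eq_mul] at h
    rw [show ((n : ℝ) + 1) * d = 1 by simp only [d]; field_simp] at h
    rw [inv_mul_le_iff₀ hd, mul_add] at h
    have : f 0 / (n + 1) = d * f 0 := by ring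
    linarith
  have hlim : 4 * √π * I ≤ √T := by
    refine le_of_tendsto' (x := Filter.atTop) ?_ hstep
    simpa using ((tendsto_one_div_add_atTop_nhds_zero_nat.const_mul (f 0)).const_sub I).const_mul
      (4 * √π) |>.congr fun n => by ring
  have hI : 0 ≤ I := intervalIntegral.integral_nonneg zero_le_one fun z _ => profile_zero_le K z
  have hsq := mul_self_le_mul_self (mul_nonneg (by positivity) hI) hlim
  have hT0 : 0 ≤ T := by
    rcases le_or_gt 0 T with h | h
    · exact h
    · have h' := hsup _ (hsup K hP.1).1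
      rw [show T = _ from h'.2.2 _ (by simp)] at h
      exact absurd h (not_lt.2 ENNReal.toReal_nonneg)
  rw [mul_self_sqrt hT0] at hsq
  nlinarith [mul_self_sqrt pi_pos.le]

end Vale.Agent.P237.Three
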