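import Vale.Agent.P237.Three.Position
import Vale.Agent.P237.Three.Shadow
import Vale.Agent.P237.Three.Minimiser
import Vale.Agent.P237.Three.Reduction

/-!
P237, dimension three: some direction in which the second projection body is large
(section 2 of the proof note).
-/

noncomputable section

open MeasureTheory Set Real
open scoped Pointwise RealInnerProductSpace

namespace Vale.Agent.P237.Three

/-- The second projection body is covariant. -/
theorem projectionBody_twice {K : Set (E 3)} (hK : Body3 K) (S : E 3 ≃ₗ[ℝ] E 3) :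
    projectionBody (projectionBody (S '' K)) =
      |LinearMap.det (S : E 3 →ₗ[ℝ] E 3)| • (S '' projectionBody (projectionBody K)) := by
  set S' := (S : E 3 →ₗ[ℝ] E 3)
  set D := |LinearMap.det S'|
  have hD : 0 < D := abs_pos.2 (LinearEquiv.isUnit_det' S).ne_zero
  have hT0 : LinearMap.det (D⁻¹ • LinearMap.adjoint S') ≠ 0 := by
    set b := EuclideanSpace.basisFun (Fin 3) ℝ
    rw [LinearMap.det_smul, ← LinearMap.det_toMatrix b.toBasis (LinearMap.adjoint S'),
      LinearMap.toMatrix_adjoint b b, Matrix.det_conjTranspose, LinearMap.det_toMatrix, star_trivial]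
    exact mul_ne_zero (pow_ne_zero _ (inv_ne_zero hD.ne')) (LinearEquiv.isUnit_det' S).ne_zero
  set T := (D⁻¹ • LinearMap.adjoint S').equivOfDetNeZero hT0
  have hTcoe : ∀ x, T x = D⁻¹ • LinearMap.adjoint S' x := fun x => rfl
  have h1 : projectionBody (S '' K) = T.symm '' projectionBody K := by
    rw [projectionBody_image hK.1]
    exact (Equiv.image_symm_eq_preimage T.toEquiv _).symm
  rw [h1, projectionBody_image (supportStmt K hK).1.1 T.symm]
  set M := |LinearMap.det (T.symm : E 3 →ₗ[ℝ] E 3)|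
  have hM : M = D ^ 2 := by
    have hTd : LinearMap.det (T : E 3 →ₗ[ℝ] E 3) = D⁻¹ ^ 3 * LinearMap.det S' := by
      set b := EuclideanSpace.basisFun (Fin 3) ℝ
      rw [show (T : E 3 →ₗ[ℝ] E 3) = D⁻¹ • LinearMap.adjoint S' from rfl, LinearMap.det_smul,
        finrank_euclideanSpace_fin, ← LinearMap.det_toMatrix b.toBasis (LinearMap.adjoint S'),
        LinearMap.toMatrix_adjoint b b, Matrix.det_conjTranspose, LinearMap.det_toMatrix,
        star_trivial]
    show |LinearMap.det (T.symm : E 3 →ₗ[ℝ] E 3)| = _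
    rw [LinearEquiv.det_coe_symm, hTd, abs_inv, abs_mul, abs_pow, abs_inv,
      abs_of_pos hD]
    change (D⁻¹ ^ 3 * D)⁻¹ = D ^ 2
    field_simp
  have hadj : ∀ y, LinearMap.adjoint (T.symm : E 3 →ₗ[ℝ] E 3) y = D • S.symm y := fun y => by
    refine ext_inner_right ℝ fun x => ?_
    obtain ⟨z, rfl⟩ := T.surjective x
    rw [LinearMap.adjoint_inner_left, LinearEquiv.coe_coe, T.symm_apply_apply, hTcoe,
      inner_smul_left, inner_smul_right, LinearMap.adjoint_inner_right]
    simp [S', ← mul_assoc, mul_inv_cancel₀ hD.ne']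
  ext y
  rw [mem_preimage, LinearMap.smul_apply, hadj, hM, smul_smul, mem_smul_set_iff_inv_smul_mem₀ hD.ne',
    show (D ^ 2)⁻¹ * D = D⁻¹ by field_simp, LinearEquiv.image_eq_preimage_symm, mem_preimage,
    map_smul]

theorem keyStmt_of (hprof : ProfileStmt) (hsl : SlicesStmt) : KeyStmt := by
  intro K hK hs
  obtain ⟨S, hP⟩ := positionStmt K hK hs
  set S' := (S : E 3 →ₗ[ℝ] E 3)
  set D := |LinearMap.det S'|
  have hD : 0 < D := abs_pos.2 (LinearEquiv.isUnit_det' S).ne_zero
  obtain ⟨hconc, hanti, hge, hA, hvol, hball⟩ := hsl _ hP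
  obtain ⟨hlem, hlemeq⟩ := hprof _ hconc hanti hge hA
  have hsh := shadow_of supportStmt hP hanti
  set I := ∫ z in (0 : ℝ)..1, profile (S '' K) z
  set J := ∫ z in (0 : ℝ)..1, profile (S '' K) z ^ 2
  set e₀ : E 3 := EuclideanSpace.single 0 1
  have he₀ : ‖e₀‖ = 1 := by simp [e₀]
  set a := LinearMap.adjoint S' e₀
  set L := projectionBody (projectionBody K)
  have hL : Body3 L := (supportStmt _ (supportStmt K hK).1).1
  have hLn := body3_nonempty hL
  have hKn := body3_nonempty hK
  have hsuppL : supp (projectionBody (projectionBody (S '' K))) e₀ = D * supp L a := by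
    rw [projectionBody_twice hK S]
    rw [show D • (S '' L) = ((D • S' : E 3 →ₗ[ℝ] E 3) '' L) by
      rw [← image_smul, image_image]; rfl, supp_image, map_smulₛₗ, LinearMap.smul_apply]
    simp only [RCLike.star_def, conj_trivial]
    exact supp_smul hL.1 hLn hD.le a
  have hsuppK : supp K a = 1 := by
    rw [← supp_image, show S' '' K = S '' K from rfl]
    refine le_antisymm (supp_le (hKn.image S) fun x hx => ?_) ?_
    · have := hP.2.2.2.1 x hx
      rw [EuclideanSpace.inner_single_right]
      simpa using (le_abs_self _).trans this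
    · have hmem : e₀ ∈ S '' K := hP.2.2.1 (by simp [e₀])
      have := le_supp hP.1.1 hmem e₀
      simpa [real_inner_self_eq_norm_sq, he₀] using this
  have hvK : vol (S '' K) = D * vol K := vol_image_equiv S K
  rw [hsuppL] at hsh
  have ha : a ≠ 0 := fun h => by
    rw [h] at hsuppK
    have := supp_le hKn (v := (0 : E 3)) (c := 0) fun x _ => by simp
    linarith
  set e := ‖a‖⁻¹ • a
  have hn : 0 < ‖a‖ := norm_pos_iff.2 ha
  refine ⟨e, by rw [norm_smul, norm_inv, norm_norm, inv_mul_cancel₀ hn.ne'], ?_⟩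
  rw [supp_smul hK.1 hKn (inv_nonneg.2 hn.le), supp_smul hL.1 hLn (inv_nonneg.2 hn.le), hsuppK,
    mul_one]
  have key : pConst * (D * vol K) ≤ 16 * π * I ^ 2 := by
    rw [← hvK, hvol]
    have h1 := mul_le_mul_of_nonneg_left hlem (by positivity : (0 : ℝ) ≤ 16 * π)
    calc pConst * (2 * π * J) = 16 * π * (3 * π ^ 2 / 32 * J) := by rw [pConst]; ring
      _ ≤ _ := h1
  refine ⟨?_, fun h => ?_⟩
  · rw [mul_comm (pConst * vol K)]
    refine mul_le_mul_of_nonneg_left ?_ (inv_nonneg.2 hn.le)
    nlinarith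
  · rw [mul_comm (pConst * vol K)] at h
    have h1 : supp L a ≤ pConst * vol K := le_of_mul_le_mul_left h (inv_pos.2 hn)
    have h2 : I ^ 2 = 3 * π ^ 2 / 32 * J := by
      refine le_antisymm ?_ hlem
      have h3 : 16 * π * I ^ 2 ≤ pConst * (2 * π * J) := by
        rw [← hvol, hvK]; nlinarith
      rw [pConst] at h3
      nlinarith [pi_pos]
    refine ⟨S.symm, ?_⟩
    rw [← hball (hlemeq h2), image_image]
    simp

end Vale.Agent.P237.Three
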