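import Vale.Agent.P237.Three.Pins
import Vale.Agent.P237.Sharp.Equality

/-!
P237: equality in the Brunn-Minkowski inequality for two bodies of equal volume. In every direction
the two laws of the coordinate are translates; the centroids fix the translation, so each support
function bounds the other and the bodies are translates.
-/

noncomputable section

open MeasureTheory Set Metric
open scoped RealInnerProductSpace Pointwise ENNReal

namespace Vale.Agent.P237.Three

open Sharp

/-- A body whose average with a body of equal volume has that volume is a translate of it. -/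
theorem eq_translate_of_mid {m : ℕ} (hm : m ≠ 0) {L M : Set (E (m + 1))} (hL : IsCompact L)
    (hLc : Convex ℝ L) (hLi : (interior L).Nonempty) (hM : IsCompact M) (hMc : Convex ℝ M)
    (hMi : (interior M).Nonempty) (hv : vol M = vol L)
    (hmid : vol ((2⁻¹ : ℝ) • (L + M)) = vol L) : ∃ g, L = (fun x => g + x) '' M := by
  set κ := vol L with hκ
  have hk : 0 < κ := ENNReal.toReal_pos
    ((isOpen_interior.measure_pos volume hLi).trans_le (measure_mono interior_subset)).ne'
    hL.measure_lt_top.ne
  set C := (2⁻¹ : ℝ) • (L + M) with hC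
  have hCi : (interior C).Nonempty := by
    obtain ⟨x, hx⟩ := hMi
    obtain ⟨y, hy⟩ := hLi
    refine ⟨(2⁻¹ : ℝ) • (y + x), ?_⟩
    rw [hC, interior_smul₀ (by norm_num)]
    exact smul_mem_smul_set (subset_interior_add_left (add_mem_add hy (interior_subset hx)))
  have law : ∀ e : E (m + 1), ‖e‖ = 1 → ∃ c : ℝ, ∀ s : ℝ,
      volume (L ∩ {x | ⟪e, x⟫ ≤ s + c}) = volume (M ∩ {x | ⟪e, x⟫ ≤ s}) := by
    intro e he
    obtain ⟨ψ, hψ0, hψv⟩ := exists_coord he
    have hbody : ∀ {S : Set (E (m + 1))}, IsCompact S → Convex ℝ S → (interior S).Nonempty →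
        Body (ψ '' S) := fun {S} hS hSc hSi =>
      ⟨hS.image ψ.continuous, hSc.linear_image ψ.toLinearEquiv.toLinearMap,
        (hSi.image ψ).mono (ψ.toHomeomorph.isOpenMap.image_interior_subset S)⟩
    obtain ⟨c, hc'⟩ := below_translate hm (hbody hL hLc hLi) (hbody hM hMc hMi)
      (hbody ((hL.add hM).smul _) ((hLc.add hMc).smul _) hCi)
      (by rw [hψv, hψv]; exact hmid.symm) (by rw [hψv, hψv]; exact hv.trans hmid.symm)
      (by
        rintro _ ⟨x, hx, rfl⟩ _ ⟨y, hy, rfl⟩
        exact ⟨(2⁻¹ : ℝ) • (x + y), ⟨_, add_mem_add hx hy, rfl⟩, by simp [smul_add]⟩)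
    have hbl : ∀ (S : Set (E (m + 1))) (s : ℝ),
        below (ψ '' S) s = (volume (S ∩ {x | ⟪e, x⟫ ≤ s})).toReal := by
      intro S s
      rw [below, ← hψv (S ∩ _)]
      congr 2
      ext y
      constructor
      · rintro ⟨⟨x, hx, rfl⟩, hxs⟩
        exact ⟨x, ⟨hx, by simpa [hψ0] using hxs⟩, rfl⟩
      · rintro ⟨x, ⟨hx, hxs⟩, rfl⟩
        exact ⟨⟨x, hx, rfl⟩, by simpa [hψ0] using hxs⟩
    refine ⟨c, fun s => ?_⟩
    have h := hc' s
    rw [hbl, hbl] at h
    exact (ENNReal.toReal_eq_toReal_iff'
      ((measure_mono inter_subset_left).trans_lt hL.measure_lt_top).ne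
      ((measure_mono inter_subset_left).trans_lt hM.measure_lt_top).ne).1 h
  set g := κ⁻¹ • ((∫ x in L, x) - ∫ x in M, x) with hg
  refine ⟨g, ?_⟩
  have : IsFiniteMeasure (volume.restrict L) :=
    ⟨by rw [Measure.restrict_apply_univ]; exact hL.measure_lt_top⟩
  have : IsFiniteMeasure (volume.restrict M) :=
    ⟨by rw [Measure.restrict_apply_univ]; exact hM.measure_lt_top⟩
  have hle : ∀ e : E (m + 1), ‖e‖ = 1 → ∀ b : ℝ, (∀ y ∈ M, ⟪e, y⟫ ≤ b) →
      ∀ x ∈ L, ⟪e, x⟫ ≤ ⟪e, g⟫ + b := by
    intro e he b hb
    obtain ⟨c, hc'⟩ := law e he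
    have hmeq : (volume.restrict L).map (fun x => ⟪e, x⟫) =
        (volume.restrict M).map (fun x => ⟪e, x⟫ + c) := by
      refine Measure.ext_of_Iic _ _ fun s => ?_
      rw [Measure.map_apply (by fun_prop) measurableSet_Iic,
        Measure.map_apply (by fun_prop) measurableSet_Iic,
        Measure.restrict_apply ((by fun_prop : Measurable fun x : E (m + 1) => ⟪e, x⟫)
          measurableSet_Iic),
        Measure.restrict_apply ((by fun_prop : Measurable fun x : E (m + 1) => ⟪e, x⟫ + c)
          measurableSet_Iic), inter_comm, inter_comm _ M]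
      convert hc' (s - c) using 3
      · ext x; simp
      · ext x; simp [le_sub_iff_add_le]
    have hint := congrArg (fun μ : Measure ℝ => ∫ t, t ∂μ) hmeq
    rw [integral_map (by fun_prop) (by fun_prop), integral_map (by fun_prop) (by fun_prop)] at hint
    have hiM : IntegrableOn (fun x : E (m + 1) => ⟪e, x⟫) M :=
      (Continuous.continuousOn (by fun_prop)).integrableOn_compact hM
    rw [integral_add hiM (integrable_const c), setIntegral_const, smul_eq_mul,
      integral_inner (continuous_id'.continuousOn.integrableOn_compact hL),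
      integral_inner (continuous_id'.continuousOn.integrableOn_compact hM),
      show volume.real M = κ from hv] at hint
    have hce : ⟪e, g⟫ = c := by
      rw [hg, real_inner_smul_right, inner_sub_right, hint]
      field_simp
      ring
    have hnull : volume (L \ {x | ⟪e, x⟫ ≤ b + c}) = 0 := by
      have hB : M ∩ {x | ⟪e, x⟫ ≤ b} = M := inter_eq_left.2 hb
      have h1 : volume (L ∩ {x | ⟪e, x⟫ ≤ b + c}) = volume L := by
        rw [hc' b, hB]
        exact (ENNReal.toReal_eq_toReal_iff' hM.measure_lt_top.ne hL.measure_lt_top.ne).1 hv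
      have h2 := measure_inter_add_sdiff (μ := volume) L
        (measurableSet_le (by fun_prop) measurable_const : MeasurableSet {x | ⟪e, x⟫ ≤ b + c})
      rw [h1] at h2
      exact (ENNReal.add_right_inj hL.measure_lt_top.ne).1 (h2.trans (add_zero _).symm)
    intro x hx
    rw [hce, add_comm c b]
    by_contra hxc
    have ho : IsOpen {y | b + c < ⟪e, y⟫} := isOpen_lt continuous_const (by fun_prop)
    have hxcl : x ∈ closure (interior L) := by
      rw [hLc.closure_interior_eq_closure_of_nonempty_interior hLi]; exact subset_closure hx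
    have hne : ({y | b + c < ⟪e, y⟫} ∩ interior L).Nonempty :=
      mem_closure_iff.1 hxcl _ ho (show b + c < ⟪e, x⟫ from not_le.1 hxc)
    exact ((ho.inter isOpen_interior).measure_pos volume hne).ne'
      (measure_mono_null (fun y hy => show y ∈ L \ {x | ⟪e, x⟫ ≤ b + c} from
        ⟨interior_subset hy.2, fun h => absurd h (not_le.2 (mem_ofPred_eq ▸ hy.1))⟩) hnull)
  set T := (fun x => g + x) '' M with hT
  have hTc : IsCompact T := hM.image (by fun_prop)
  have hTx : Convex ℝ T := hMc.translate g
  have hsub : L ⊆ T := by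
    intro x hx
    by_contra hxT
    obtain ⟨φ, u, hφu, hux⟩ := geometric_hahn_banach_closed_point hTx hTc.isClosed hxT
    set w := (InnerProductSpace.toDual ℝ (E (m + 1))).symm φ with hw
    have hφ : ∀ z, φ z = ⟪w, z⟫ := fun z => by
      rw [hw, InnerProductSpace.toDual_symm_apply]
    have hw0 : 0 < ‖w‖ := by
      refine norm_pos_iff.2 fun h0 => ?_
      obtain ⟨y, hy⟩ := hMi
      have := hφu (g + y) ⟨y, interior_subset hy, rfl⟩
      rw [hφ, h0, inner_zero_left] at this
      rw [hφ, h0, inner_zero_left] at hux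
      linarith
    have he : ‖‖w‖⁻¹ • w‖ = 1 := by rw [norm_smul, norm_inv, norm_norm, inv_mul_cancel₀ hw0.ne']
    have hb : ∀ y ∈ M, ⟪‖w‖⁻¹ • w, y⟫ ≤ ‖w‖⁻¹ * (u - ⟪w, g⟫) := fun y hy => by
      rw [real_inner_smul_left]
      refine mul_le_mul_of_nonneg_left ?_ (inv_nonneg.2 hw0.le)
      have := hφu (g + y) ⟨y, hy, rfl⟩
      rw [hφ, inner_add_right] at this
      linarith
    have h := hle _ he _ hb x hx
    rw [real_inner_smul_left, real_inner_smul_left, ← mul_add,
      mul_le_mul_iff_right₀ (inv_pos.2 hw0)] at h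
    rw [hφ] at hux
    linarith
  refine hsub.antisymm ?_
  have hd : volume (T \ L) = 0 := by
    rw [measure_sdiff hsub hL.measurableSet.nullMeasurableSet hL.measure_lt_top.ne,
      tsub_eq_zero_iff_le]
    refine ((ENNReal.toReal_eq_toReal_iff' hTc.measure_lt_top.ne hL.measure_lt_top.ne).1 ?_).le
    change vol T = vol L
    rw [show T = g +ᵥ M from rfl, vol, measure_vadd]
    exact hv
  have ho : interior T ⊆ L := by
    intro y hy
    by_contra hyL
    exact ((isOpen_interior.sdiff hL.isClosed).measure_pos volume ⟨y, hy, hyL⟩).ne'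
      (measure_mono_null (sdiff_subset_sdiff interior_subset le_rfl) hd)
  have hTi : (interior T).Nonempty := by
    rw [show T = g +ᵥ M from rfl, interior_vadd]
    exact hMi.vadd_set
  calc T ⊆ closure T := subset_closure
    _ = closure (interior T) := (hTx.closure_interior_eq_closure_of_nonempty_interior hTi).symm
    _ ⊆ L := closure_minimal ho hL.isClosed

/-- `MidpointStmt`. -/
theorem midpoint : MidpointStmt := fun _ _ hK hM hv hmid =>
  eq_translate_of_mid (m := 2) (by norm_num) hK.1 hK.2.1 hK.2.2 hM.1 hM.2.1 hM.2.2 hv hmid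

end Vale.Agent.P237.Three
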