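import Vale.Agent.P237.Three.Statement
import Mathlib.Analysis.Convex.Function
import Mathlib.Analysis.SpecialFunctions.Trigonometric.Basic
import Mathlib.MeasureTheory.Integral.IntervalIntegral.Basic

/-!
P237, dimension three: interfaces between the modules of the proof in `notes/P237h8/proof.md`.
-/

noncomputable section

open MeasureTheory Set Real
open scoped Pointwise RealInnerProductSpace

namespace Vale.Agent.P237.Three

/-- A convex body of three-space. -/
def Body3 (K : Set (E 3)) : Prop := IsCompact K ∧ Convex ℝ K ∧ (interior K).Nonempty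

/-- Symmetry about the origin. -/
def IsSym (K : Set (E 3)) : Prop := ∀ x ∈ K, -x ∈ K

/-- The support function. -/
def supp (K : Set (E 3)) (v : E 3) : ℝ := sSup ((fun x => ⟪x, v⟫) '' K)

/-- The constant of Petty's inequality in dimension three. -/
def pConst : ℝ := 3 * π ^ 2 / 4

/-- Section 3: the one dimensional profile lemma. -/
def ProfileStmt : Prop :=
  ∀ f : ℝ → ℝ, ConcaveOn ℝ (Icc 0 1) f → AntitoneOn f (Icc 0 1) →
    (∀ z ∈ Icc (0 : ℝ) 1, √(1 - z ^ 2) ≤ f z) →
    (∫ z in (0 : ℝ)..1, f z ^ 4) ≤ 4 * ∫ z in (0 : ℝ)..1, z ^ 2 * f z ^ 2 →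
      3 * π ^ 2 / 32 * (∫ z in (0 : ℝ)..1, f z ^ 2) ≤ (∫ z in (0 : ℝ)..1, f z) ^ 2 ∧
      ((∫ z in (0 : ℝ)..1, f z) ^ 2 = 3 * π ^ 2 / 32 * (∫ z in (0 : ℝ)..1, f z ^ 2) →
        ∀ z ∈ Ico (0 : ℝ) 1, f z = √(1 - z ^ 2))

/-- Section 4.0: the shadow volume is the support function of the projection body. -/
def SupportStmt : Prop :=
  ∀ K : Set (E 3), Body3 K →
    Body3 (projectionBody K) ∧ IsSym (projectionBody K) ∧
      ∀ u : E 3, ‖u‖ = 1 → supp (projectionBody K) u = vol (shadowCylinder K u)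

/-- Sections 4.1 and 4.2: the class reduction and its equality case, from the first variation. -/
def ReductionStmt : Prop :=
  ∀ K : Set (E 3), Body3 K →
    let Z := projectionBody K
    let L := projectionBody Z
    vol L * vol K ^ 2 ≤ vol Z ^ 3 ∧
      (vol Z ^ 3 ≤ vol L * vol K ^ 2 →
        vol ((2⁻¹ : ℝ) • (K + (vol K / vol Z) • L)) = vol K)

/-- Section 2: some direction in which the second projection body is large. -/
def KeyStmt : Prop :=
  ∀ K : Set (E 3), Body3 K → IsSym K → ∃ e : E 3, ‖e‖ = 1 ∧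
    pConst * vol K * supp K e ≤ supp (projectionBody (projectionBody K)) e ∧
    (supp (projectionBody (projectionBody K)) e ≤ pConst * vol K * supp K e →
      ∃ S : E 3 ≃ₗ[ℝ] E 3, K = S '' Metric.closedBall (0 : E 3) 1)

/-- Section 4.3: a minimiser among symmetric bodies. -/
def MinimiserStmt : Prop :=
  ∃ K₀ : Set (E 3), Body3 K₀ ∧ IsSym K₀ ∧ ∀ K : Set (E 3), Body3 K → IsSym K →
    vol (projectionBody K₀) * vol K ^ 2 ≤ vol (projectionBody K) * vol K₀ ^ 2

/-- Equality in the Brunn-Minkowski inequality for two bodies of equal volume. -/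
def MidpointStmt : Prop :=
  ∀ K M : Set (E 3), Body3 K → Body3 M → vol M = vol K →
    vol ((2⁻¹ : ℝ) • (K + M)) = vol K → ∃ g : E 3, K = (fun x => g + x) '' M

end Vale.Agent.P237.Three
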