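import Vale.Agent.P237.Three.Minimiser
import Vale.Agent.P237.Three.Pins

/-!
P237, dimension three: a minimiser among symmetric bodies.
-/

noncomputable section

open MeasureTheory Set

namespace Vale.Agent.P237.Three

theorem minimiserStmt : MinimiserStmt := by
  obtain ⟨K₀, h0, hs, h⟩ := exists_minimiser_symm (n := 3) (by norm_num)
  refine ⟨K₀, h0, hs, fun K hK hKs => ?_⟩
  have h1 := h K hK hKs
  rw [ratio, ratio, div_le_div_iff₀ (pow_pos (vol_pos h0) _) (pow_pos (vol_pos hK) _)] at h1
  exact h1

end Vale.Agent.P237.Three
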