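import Vale.Agent.P237.Three.KeyPins

/-!
P237, dimension three: the slices of a positioned body (`notes/P237h8/proof.md`, sections 2.2, 2.3).
-/

noncomputable section

open MeasureTheory Set Real
open scoped Pointwise RealInnerProductSpace

namespace Vale.Agent.P237.Three

/-- The squared norm in the plane. -/
def planeSq (y : Fin 2 → ℝ) : ℝ := y 0 ^ 2 + y 1 ^ 2

lemma continuous_planeSq : Continuous planeSq := by unfold planeSq; fun_prop

lemma volume_planeSq_lt (c : ℝ) :
    volume.real {y : Fin 2 → ℝ | planeSq y < c} = π * max c 0 := by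
  rcases le_or_gt c 0 with hc | hc
  · have : {y : Fin 2 → ℝ | planeSq y < c} = ∅ :=
      eq_empty_iff_forall_notMem.2 fun y hy => by
        simp only [Set.mem_ofPred_eq, planeSq] at hy
        nlinarith [sq_nonneg (y 0), sq_nonneg (y 1)]
    simp [this, max_eq_right hc, Measure.real]
  · have he : {y : Fin 2 → ℝ | planeSq y < c} =
        WithLp.toLp 2 ⁻¹' Metric.ball (0 : E 2) (√c) := by
      ext y
      simp only [Set.mem_ofPred_eq, mem_preimage, mem_ball_zero_iff, Real.lt_sqrt (norm_nonneg _),
        EuclideanSpace.real_norm_sq_eq, Fin.sum_univ_two, planeSq]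
    rw [he, measureReal_def, (PiLp.volume_preserving_toLp (Fin 2)).measure_preimage
      measurableSet_ball.nullMeasurableSet, EuclideanSpace.volume_ball_fin_two,
      max_eq_left hc.le, ENNReal.toReal_mul, ENNReal.toReal_pow,
      ENNReal.toReal_ofReal (Real.sqrt_nonneg c), ENNReal.toReal_ofReal pi_pos.le, sq_sqrt hc.le]
    ring

/-- Among plane sets of given area the disc has the least second moment. -/
lemma area_sq_le {A : Set (Fin 2 → ℝ)} (hA : IsCompact A) :
    volume.real A ^ 2 / (2 * π) ≤ ∫ y in A, planeSq y := by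
  set r := volume.real A / π with hr
  have hr0 : 0 ≤ r := by positivity
  set F : (Fin 2 → ℝ) → ℝ := fun y => max (r - planeSq y) 0 with hF
  have hFc : Continuous F := (continuous_const.sub continuous_planeSq).max continuous_const
  have hFi : Integrable F := by
    refine hFc.integrable_of_hasCompactSupport
      (HasCompactSupport.intro (isCompact_closedBall 0 (√r)) fun y hy => ?_)
    by_contra h
    refine hy ?_
    have hlt : planeSq y < r := by
      by_contra h'
      exact h (max_eq_right (by linarith [not_lt.1 h']))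
    rw [mem_closedBall_zero_iff, pi_norm_le_iff_of_nonneg (Real.sqrt_nonneg r)]
    intro i
    rw [Real.norm_eq_abs]
    refine Real.abs_le_sqrt ?_
    have := sq_nonneg (y 0)
    have := sq_nonneg (y 1)
    simp only [planeSq] at hlt
    fin_cases i <;> simp <;> linarith
  have hFv : ∫ y, F y = π * r ^ 2 / 2 := by
    rw [hFi.integral_eq_integral_meas_lt (Filter.Eventually.of_forall fun y => le_max_right _ _)]
    have h1 : ∀ t ∈ Ioi (0 : ℝ), volume.real {y | t < F y} = π * max (r - t) 0 := fun t ht => by
      rw [← volume_planeSq_lt]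
      congr 1
      ext y
      simp only [Set.mem_ofPred_eq, hF, lt_max_iff, not_lt.2 (le_of_lt (mem_Ioi.1 ht)), or_false]
      constructor <;> intro h <;> linarith
    rw [setIntegral_congr_fun measurableSet_Ioi h1,
      setIntegral_eq_of_subset_of_forall_sdiff_eq_zero measurableSet_Ioi
        (Ioc_subset_Ioi_self : Ioc 0 r ⊆ Ioi 0) fun t ht => by
          have : r < t := not_le.1 fun h => ht.2 ⟨ht.1, h⟩
          simp [max_eq_right (by linarith : r - t ≤ 0)],
      setIntegral_congr_fun (g := fun t => π * (r - t)) measurableSet_Ioc fun t ht => by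
        simp only [max_eq_left (by linarith [ht.2] : 0 ≤ r - t)],
      ← intervalIntegral.integral_of_le hr0, intervalIntegral.integral_const_mul,
      intervalIntegral.integral_sub (by simp) intervalIntegral.intervalIntegrable_id]
    simp
    ring
  have hqi : IntegrableOn planeSq A := continuous_planeSq.continuousOn.integrableOn_compact hA
  have hci : IntegrableOn (fun _ => r) A := integrableOn_const hA.measure_lt_top.ne
  have h2 : (∫ y in A, (r - planeSq y)) ≤ ∫ y, F y :=
    (setIntegral_mono_on (hci.sub hqi) hFi.integrableOn hA.measurableSet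
      fun y _ => le_max_left _ _).trans
      (setIntegral_le_integral hFi (Filter.Eventually.of_forall fun y => le_max_right _ _))
  rw [integral_sub hci hqi, setIntegral_const, hFv, smul_eq_mul] at h2
  have hA' : volume.real A = π * r := by rw [hr]; field_simp
  rw [hA'] at h2 ⊢
  have : (π * r) ^ 2 / (2 * π) = π * r ^ 2 / 2 := by field_simp
  nlinarith

/-- Fubini over the slices. -/
lemma integral_slices {X : Set (Fin 3 → ℝ)} (hX : IsCompact X) {g : (Fin 3 → ℝ) → ℝ}
    (hg : Continuous g) :
    (∫ v in X, g v) = ∫ t, ∫ y in Sharp.slice0 X t, g (Fin.cons t y) ∧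
      Integrable fun t => ∫ y in Sharp.slice0 X t, g (Fin.cons t y) := by
  set e := (MeasurableEquiv.piFinSuccAbove (fun _ : Fin (2 + 1) => ℝ) 0).symm with he
  have hmp : MeasurePreserving e (volume.prod volume) volume :=
    (volume_preserving_piFinSuccAbove (fun _ : Fin (2 + 1) => ℝ) 0).symm
  have he' : ∀ (t : ℝ) (y : Fin 2 → ℝ), e (t, y) = Fin.cons t y := fun t y => by
    simp [e, MeasurableEquiv.piFinSuccAbove_symm_apply, Fin.insertNthEquiv, Fin.insertNth_zero']
  have hh : Integrable (X.indicator g) :=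
    (integrable_indicator_iff hX.measurableSet).2 (hg.continuousOn.integrableOn_compact hX)
  have hi : Integrable (fun p => X.indicator g (e p)) (volume.prod volume) :=
    (hmp.integrable_comp_emb e.measurableEmbedding).2 hh
  have hin : ∀ t, (∫ y, X.indicator g (e (t, y))) =
      ∫ y in Sharp.slice0 X t, g (Fin.cons t y) := fun t => by
    rw [← integral_indicator (Sharp.isCompact_slice0 hX t).measurableSet]
    refine integral_congr_ae (Filter.Eventually.of_forall fun y => ?_)
    simp only [he']
    rfl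
  constructor
  · rw [← integral_indicator hX.measurableSet, ← hmp.integral_comp e.measurableEmbedding,
      integral_prod _ hi]
    simp only [hin]
  · simpa only [hin] using hi.integral_prod_left

/-- An even function vanishing outside the interval of radius one. -/
lemma integral_even {F : ℝ → ℝ} (hF : Integrable F) (he : ∀ t, F (-t) = F t)
    (h0 : ∀ t, 1 < |t| → F t = 0) : (∫ t, F t) = 2 * ∫ t in (0 : ℝ)..1, F t := by
  rw [← setIntegral_eq_integral_of_forall_compl_eq_zero (s := Icc (-1 : ℝ) 1) fun t ht => h0 t <|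
      not_le.1 fun h => ht (abs_le.1 h),
    integral_Icc_eq_integral_Ioc, ← intervalIntegral.integral_of_le (by norm_num),
    ← intervalIntegral.integral_add_adjacent_intervals (b := (0 : ℝ)) hF.intervalIntegrable
      hF.intervalIntegrable]
  have : (∫ t in (-1 : ℝ)..0, F t) = ∫ t in (0 : ℝ)..1, F t := by
    have h := intervalIntegral.integral_comp_neg (a := (0 : ℝ)) (b := 1) F
    simp only [he, neg_zero] at h
    exact h.symm
  rw [this]
  ring

lemma toLp_cons_sq (t : ℝ) (y : Fin 2 → ℝ) :
    ‖(WithLp.toLp 2 (Fin.cons t y : Fin 3 → ℝ) : E 3)‖ ^ 2 = t ^ 2 + planeSq y := by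
  rw [EuclideanSpace.real_norm_sq_eq, Fin.sum_univ_succ, Fin.sum_univ_two]
  simp only [Fin.cons_zero, Fin.cons_succ, planeSq]

lemma setIntegral_coords (K : Set (E 3)) (g : (Fin 3 → ℝ) → ℝ) :
    (∫ x in K, g (WithLp.ofLp x)) = ∫ v in coords K, g v :=
  ((PiLp.volume_preserving_toLp (Fin 3)).setIntegral_preimage_emb
    (MeasurableEquiv.toLp 2 (Fin 3 → ℝ)).measurableEmbedding (fun x => g (WithLp.ofLp x)) K).symm

/-- Sections 2.2 and 2.3 of the proof. -/
theorem slicesStmt : SlicesStmt := by
  intro K hP
  obtain ⟨⟨hKc, hKv, hKi⟩, hsym, hball, hz, hmom⟩ := hP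
  set X := coords K with hXd
  have hXc : IsCompact X :=
    (PiLp.homeomorph 2 (fun _ : Fin 3 => ℝ)).symm.isCompact_preimage.2 hKc
  have hXv : Convex ℝ X :=
    hKv.linear_preimage (WithLp.linearEquiv 2 ℝ (Fin 3 → ℝ)).symm.toLinearMap
  have hmem : ∀ t y, y ∈ Sharp.slice0 X t ↔
      (WithLp.toLp 2 (Fin.cons t y : Fin 3 → ℝ) : E 3) ∈ K := fun t y => Iff.rfl
  have hdisc : ∀ t y, t ^ 2 + planeSq y ≤ 1 → y ∈ Sharp.slice0 X t := fun t y h => by
    refine (hmem t y).2 (hball (mem_closedBall_zero_iff.2 ?_))
    rw [← toLp_cons_sq] at h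
    nlinarith [norm_nonneg (WithLp.toLp 2 (Fin.cons t y : Fin 3 → ℝ) : E 3)]
  have hht : Ioo (-1 : ℝ) 1 ⊆ Sharp.heights X := fun t ht => by
    refine ⟨Fin.cons t 0, ?_, rfl⟩
    refine interior_maximal (s := X) (t := WithLp.toLp 2 ⁻¹' Metric.ball (0 : E 3) 1)
      (fun v hv => hball (Metric.ball_subset_closedBall hv))
      (Metric.isOpen_ball.preimage (PiLp.continuous_toLp 2 _)) ?_
    rw [mem_preimage, mem_ball_zero_iff, ← sq_lt_one_iff₀ (norm_nonneg _), toLp_cons_sq]
    simp [planeSq]
    exact abs_lt.2 ⟨ht.1, ht.2⟩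
  have hB : Sharp.Body X := ⟨hXc, hXv, by
    obtain ⟨x, hx, -⟩ := hht (show (0 : ℝ) ∈ Ioo (-1 : ℝ) 1 by constructor <;> norm_num)
    exact ⟨x, hx⟩⟩
  have hae : ∀ t, Sharp.area X t = volume.real (Sharp.slice0 X t) := fun t => rfl
  have ha0 : ∀ t, 0 ≤ Sharp.area X t := fun t => ENNReal.toReal_nonneg
  have heven : ∀ t, Sharp.area X (-t) = Sharp.area X t := fun t => by
    have : Sharp.slice0 X (-t) = -Sharp.slice0 X t := by
      ext y
      rw [Set.mem_neg, hmem, hmem]
      have hneg : (WithLp.toLp 2 (Fin.cons t (-y) : Fin 3 → ℝ) : E 3) =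
          -WithLp.toLp 2 (Fin.cons (-t) y : Fin 3 → ℝ) := by
        ext i
        refine Fin.cases ?_ (fun j => ?_) i <;> simp
      rw [hneg]
      exact ⟨fun h => hsym _ h, fun h => by simpa using hsym _ h⟩
    rw [hae, hae, this]
    simp [measureReal_def, Measure.measure_neg]
  have hout : ∀ t, 1 < |t| → Sharp.slice0 X t = ∅ := fun t ht =>
    eq_empty_iff_forall_notMem.2 fun y hy => by
      have := hz _ ((hmem t y).1 hy)
      simp at this
      linarith
  have hlow : ∀ t ∈ Ioo (-1 : ℝ) 1, π * (1 - t ^ 2) ≤ Sharp.area X t := fun t ht => by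
    have hp : 0 ≤ 1 - t ^ 2 := by nlinarith [ht.1, ht.2]
    rw [hae, ← max_eq_left hp, ← volume_planeSq_lt]
    exact measureReal_mono (fun y hy => hdisc t y (by linarith [Set.mem_ofPred_eq ▸ hy]))
      (Sharp.isCompact_slice0 hXc t).measure_lt_top.ne
  -- the profile
  set f := profile K with hfd
  have hf : ∀ z, z < 1 → f z = √(Sharp.area X z / π) := fun z hz' => if_pos hz'
  have hf1 : f 1 = 0 := if_neg (lt_irrefl _)
  have hf0 : ∀ z, 0 ≤ f z := fun z => by
    simp only [hfd, profile]; split_ifs <;> positivity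
  have hfr : ∀ z, z < 1 → f z = Sharp.area X z ^ ((2 : ℝ)⁻¹) / √π := fun z hz' => by
    rw [hf z hz', Real.sqrt_div (ha0 z), Real.sqrt_eq_rpow, one_div]
  have hcon := Sharp.concaveOn_area two_ne_zero hB
  have hcomb : ∀ x y a b : ℝ, x ∈ Ioo (-1 : ℝ) 1 → y ∈ Ioo (-1 : ℝ) 1 → 0 ≤ a → 0 ≤ b →
      a + b = 1 → a * f x + b * f y ≤ f (a * x + b * y) := by
    intro x y a b hx hy ha hb hab
    have hm : a * x + b * y ∈ Ioo (-1 : ℝ) 1 := convex_Ioo _ _ hx hy ha hb hab
    have h := hcon.2 (hht hx) (hht hy) ha hb hab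
    simp only [smul_eq_mul, Nat.cast_ofNat] at h
    rw [hfr x hx.2, hfr y hy.2, hfr _ hm.2, mul_div, mul_div, ← add_div]
    gcongr
  have hend : ∀ x a b : ℝ, x < 1 → 0 < a → 0 ≤ b → a + b = 1 →
      a * f x ≤ f (a * x + b * 1) := by
    intro x a b hx ha hb hab
    have hsub : a • Sharp.slice0 X x ⊆ Sharp.slice0 X (a * x + b * 1) := by
      rintro _ ⟨y, hy, rfl⟩
      rw [hmem] at hy ⊢
      have h1 : (WithLp.toLp 2 (Fin.cons 1 0 : Fin 3 → ℝ) : E 3) ∈ K :=
        hball (mem_closedBall_zero_iff.2 (by
          rw [← sq_le_one_iff₀ (norm_nonneg _), toLp_cons_sq]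
          simp [planeSq]))
      refine mem_of_eq_of_mem ?_ (hKv hy h1 ha.le hb hab)
      ext i
      refine Fin.cases ?_ (fun j => ?_) i <;> simp
    have hle : a ^ 2 * Sharp.area X x ≤ Sharp.area X (a * x + b * 1) := by
      have h := measureReal_mono hsub (μ := volume)
        (Sharp.isCompact_slice0 hXc _).measure_lt_top.ne
      rwa [measureReal_def, Measure.addHaar_smul_of_nonneg _ ha.le, ENNReal.toReal_mul,
        ENNReal.toReal_ofReal (by positivity), Module.finrank_fin_fun] at h
    rw [hf x hx, hf _ (by nlinarith), ← Real.sqrt_sq ha.le, ← Real.sqrt_mul (sq_nonneg a),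
      ← mul_div_assoc, Real.sqrt_sq ha.le]
    exact Real.sqrt_le_sqrt (div_le_div_of_nonneg_right hle pi_pos.le)
  have hconc : ConcaveOn ℝ (Icc 0 1) f := by
    refine ⟨convex_Icc _ _, fun x hx y hy a b ha hb hab => ?_⟩
    simp only [smul_eq_mul]
    rcases lt_or_eq_of_le hx.2 with hx1 | rfl
    · rcases lt_or_eq_of_le hy.2 with hy1 | rfl
      · exact hcomb x y a b ⟨by linarith [hx.1], hx1⟩ ⟨by linarith [hy.1], hy1⟩ ha hb hab
      · rcases ha.lt_or_eq with ha' | rfl
        · simpa [hf1] using hend x a b hx1 ha' hb hab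
        · simp at hab; simp [hab]
    · rcases lt_or_eq_of_le hy.2 with hy1 | rfl
      · rcases hb.lt_or_eq with hb' | rfl
        · simpa [hf1, add_comm] using hend y b a hy1 hb' ha (by linarith)
        · simp at hab; simp [hab]
      · rw [show a * 1 + b * 1 = 1 by linarith, hf1]; simp
  have hanti : AntitoneOn f (Icc 0 1) := by
    intro x hx y hy hxy
    rcases lt_or_eq_of_le hy.2 with hy1 | rfl
    · rcases hy.1.lt_or_eq with hy0 | rfl
      · have hey : f (-y) = f y := by
          rw [hf _ (by linarith), hf _ hy1, heven]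
        have h := hcomb (-y) y ((y - x) / (2 * y)) ((y + x) / (2 * y))
          ⟨by linarith, by linarith⟩ ⟨by linarith, hy1⟩ (div_nonneg (by linarith) (by linarith))
          (div_nonneg (by linarith [hx.1]) (by linarith)) (by field_simp; ring)
        rw [hey, show (y - x) / (2 * y) * -y + (y + x) / (2 * y) * y = x by field_simp; ring,
          ← add_mul, show (y - x) / (2 * y) + (y + x) / (2 * y) = 1 by field_simp; ring] at h
        linarith
      · rw [le_antisymm hxy hx.1]
    · rw [hf1]; exact hf0 x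
  have hS : ∀ z ∈ Icc (0 : ℝ) 1, √(1 - z ^ 2) ≤ f z := fun z hzI => by
    rcases lt_or_eq_of_le hzI.2 with h | rfl
    · rw [hf z h]
      refine Real.sqrt_le_sqrt ((le_div_iff₀ pi_pos).2 ?_)
      linarith [hlow z ⟨by linarith [hzI.1], h⟩]
    · simp [hf1]
  -- integrals over the slices
  have hint : ∀ (h : ℝ → ℝ), (∫ t in (0 : ℝ)..1, h t * Sharp.area X t) =
      π * ∫ t in (0 : ℝ)..1, h t * f t ^ 2 := fun h => by
    rw [← intervalIntegral.integral_const_mul]
    refine intervalIntegral.integral_congr_ae ?_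
    filter_upwards [compl_mem_ae_iff.2 (measure_singleton (1 : ℝ))] with t ht hti
    rw [uIoc_of_le zero_le_one] at hti
    rw [hf t (lt_of_le_of_ne hti.2 ht), sq_sqrt (by have := ha0 t; positivity)]
    field_simp
  obtain ⟨hv1, hv2⟩ := integral_slices hXc (g := fun _ => (1 : ℝ)) continuous_const
  obtain ⟨hq1, hq2⟩ := integral_slices hXc (g := fun v => v 0 ^ 2) (by fun_prop)
  obtain ⟨hr1, hr2⟩ := integral_slices hXc (g := fun v => planeSq (Fin.tail v))
    (by unfold planeSq Fin.tail; fun_prop)
  simp only [setIntegral_const, smul_eq_mul, mul_one, ← hae] at hv1 hv2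
  simp only [Fin.cons_zero, setIntegral_const, smul_eq_mul, ← hae] at hq1 hq2
  simp only [Fin.tail_cons] at hr1 hr2
  have hX0 : ∀ t, 1 < |t| → Sharp.area X t = 0 := fun t ht => by simp [hae, hout t ht]
  have hvol : vol K = 2 * π * ∫ z in (0 : ℝ)..1, f z ^ 2 := by
    have h : vol K = volume.real X := by
      rw [hXd, coords, measureReal_def, (PiLp.volume_preserving_toLp (Fin 3)).measure_preimage
        hKc.measurableSet.nullMeasurableSet]
      rfl
    have h2 := hint fun _ => 1
    simp only [one_mul] at h2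
    rw [h, hv1, integral_even hv2 heven hX0, h2]
    ring
  have hA : (∫ z in (0 : ℝ)..1, f z ^ 4) ≤ 4 * ∫ z in (0 : ℝ)..1, z ^ 2 * f z ^ 2 := by
    -- the moment along the axis
    have hM : (∫ x in K, x 0 ^ 2) = 2 * π * ∫ z in (0 : ℝ)..1, z ^ 2 * f z ^ 2 := by
      rw [setIntegral_coords K fun v => v 0 ^ 2, hq1,
        integral_even hq2 (fun t => by simp [heven]) fun t ht => by simp [hX0 t ht]]
      simp_rw [mul_comm (Sharp.area X _)]
      rw [hint fun t => t ^ 2]
      ring
    -- the moments across the axis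
    have hsum : (∫ t, ∫ y in Sharp.slice0 X t, planeSq y) =
        (∫ x in K, x 1 ^ 2) + ∫ x in K, x 2 ^ 2 := by
      rw [← hr1, setIntegral_coords K fun v => v 1 ^ 2, setIntegral_coords K fun v => v 2 ^ 2,
        ← integral_add]
      · exact integral_congr_ae (Filter.Eventually.of_forall fun v => by
          simp [planeSq, Fin.tail])
      · exact (by fun_prop : Continuous fun v : Fin 3 → ℝ => v 1 ^ 2).continuousOn.integrableOn_compact hXc
      · exact (by fun_prop : Continuous fun v : Fin 3 → ℝ => v 2 ^ 2).continuousOn.integrableOn_compact hXc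
    rw [hmom 1, hmom 2, hM] at hsum
    set C := volume.real (Fin.tail '' X)
    have hCb : ∀ t, Sharp.area X t ≤ C := fun t => by
      rw [hae]
      exact measureReal_mono (fun y hy => ⟨_, hy, Fin.tail_cons _ _⟩)
        (hXc.image (by unfold Fin.tail; fun_prop)).measure_lt_top.ne
    have hai := Sharp.integrable_area hXc
    have ha2 : Integrable fun t => Sharp.area X t ^ 2 / (2 * π) := by
      refine ((hai.bdd_mul (c := C) hai.1 (Filter.Eventually.of_forall fun t => ?_)).congr
        (Filter.Eventually.of_forall fun t => (sq (Sharp.area X t)).symm)).div_const _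
      rw [Real.norm_eq_abs, abs_of_nonneg (ha0 t)]
      exact hCb t
    have hle : (∫ t, Sharp.area X t ^ 2 / (2 * π)) ≤
        ∫ t, ∫ y in Sharp.slice0 X t, planeSq y :=
      integral_mono ha2 hr2 fun t => area_sq_le (Sharp.isCompact_slice0 hXc t)
    rw [integral_even ha2 (fun t => by simp [heven]) fun t ht => by simp [hX0 t ht], hsum] at hle
    have h4 : (∫ t in (0 : ℝ)..1, Sharp.area X t ^ 2 / (2 * π)) =
        π / 2 * ∫ z in (0 : ℝ)..1, f z ^ 4 := by
      rw [← intervalIntegral.integral_const_mul]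
      refine intervalIntegral.integral_congr_ae ?_
      filter_upwards [compl_mem_ae_iff.2 (measure_singleton (1 : ℝ))] with t ht hti
      rw [uIoc_of_le zero_le_one] at hti
      have : f t ^ 4 = (Sharp.area X t / π) ^ 2 := by
        rw [hf t (lt_of_le_of_ne hti.2 ht), show 4 = 2 * 2 from rfl, pow_mul,
          sq_sqrt (by have := ha0 t; positivity)]
      rw [this]
      field_simp
    rw [h4] at hle
    nlinarith [pi_pos]
  refine ⟨hconc, hanti, hS, hA, hvol, fun hfS => ?_⟩
  -- equality: the volume is that of the ball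
  have hv : vol K = vol (Metric.closedBall (0 : E 3) 1) := by
    have : (∫ z in (0 : ℝ)..1, f z ^ 2) = ∫ z in (0 : ℝ)..1, (1 - z ^ 2) := by
      refine intervalIntegral.integral_congr_ae ?_
      filter_upwards [compl_mem_ae_iff.2 (measure_singleton (1 : ℝ))] with t ht hti
      rw [uIoc_of_le zero_le_one] at hti
      rw [hfS t ⟨hti.1.le, lt_of_le_of_ne hti.2 ht⟩, sq_sqrt (by nlinarith [hti.1, hti.2])]
    rw [hvol, this, vol, EuclideanSpace.volume_closedBall_fin_three,
      intervalIntegral.integral_sub (by simp) (by simp : IntervalIntegrable _ _ _ _), integral_pow]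
    simp
    rw [ENNReal.toReal_ofReal (by positivity)]
    ring
  refine subset_antisymm (fun x hx => ?_) hball
  by_contra hxb
  have hxc : x ∈ closure (interior K) := by
    rw [hKv.closure_interior_eq_closure_of_nonempty_interior hKi]
    exact subset_closure hx
  obtain ⟨y, hy1, hy2⟩ := mem_closure_iff.1 hxc _ Metric.isClosed_closedBall.isOpen_compl hxb
  set U := interior K ∩ (Metric.closedBall (0 : E 3) 1)ᶜ
  have hU : 0 < volume U :=
    (isOpen_interior.inter Metric.isClosed_closedBall.isOpen_compl).measure_pos _ ⟨y, hy2, hy1⟩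
  have hle : volume (Metric.closedBall (0 : E 3) 1) + volume U ≤ volume K := by
    rw [← measure_union (disjoint_left.2 fun z h1 h2 => h2.2 h1)
      (isOpen_interior.inter Metric.isClosed_closedBall.isOpen_compl).measurableSet]
    exact measure_mono (union_subset hball fun z hz' => interior_subset hz'.1)
  have heq : volume K = volume (Metric.closedBall (0 : E 3) 1) :=
    (ENNReal.toReal_eq_toReal_iff' hKc.measure_lt_top.ne
      (isCompact_closedBall _ _).measure_lt_top.ne).1 hv
  rw [heq] at hle
  exact hU.ne' (le_antisymm (ENNReal.le_of_add_le_add_left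
    (isCompact_closedBall (0 : E 3) 1).measure_lt_top.ne (hle.trans (add_zero _).ge)) bot_le)

end Vale.Agent.P237.Three
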