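import Vale.Agent.P237.Three.Final
import Vale.Agent.P237.Three.Key
import Vale.Agent.P237.Three.Slices
import Vale.Agent.P237.Three.MinimiserProof
import Vale.Agent.P237.Three.Reduction
import Vale.Agent.P237.Three.Midpoint

/-!
P237: dimension three assembled, up to the profile lemma.
-/

noncomputable section

namespace Vale.Agent.P237.Three

/-- Petty's inequality and its equality case in dimension three from the profile lemma. -/
theorem petty_three_of_profile (hprof : ProfileStmt) : PettyThree ∧ PettyThreeEquality :=
  petty_three supportStmt reductionStmt (keyStmt_of hprof slicesStmt) minimiserStmt midpoint

end Vale.Agent.P237.Three
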