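import Mathlib.Data.Real.Basic
import Mathlib.Tactic

/-!
P237, dimension three: the two polynomial inequalities behind the profile lemma
(`notes/P237h8/proof.md`, 3.3).
-/

namespace Vale.Agent.P237.Three

/-- The pointwise inequality where the profile is at most one. -/
theorem polyA {s y : ℝ} (hs : 0 ≤ s) (hy : s ≤ y) (hy1 : y ≤ 1) :
    (y + s) * (13 - 5*s^2 - y^2) / 9 ≤ 169/100 + 81/250*(y^2 - s^2) - 243/6250 := by
  nlinarith [mul_nonneg hs (sub_nonneg.2 hy), sub_nonneg.2 hy1, sq_nonneg (s - 777/1000), sq_nonneg (y - 97/100),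
    mul_nonneg hs (sq_nonneg (s - 777/1000)), mul_nonneg (hs.trans hy) (sq_nonneg (y - 97/100)),
    mul_nonneg hs (sq_nonneg (y - s - 193/1000)), mul_nonneg (hs.trans hy) (sq_nonneg (y - s - 193/1000))]

/-- The constant part of the pointwise inequality where the profile exceeds one. -/
theorem polyB0 {s : ℝ} (hs : 0 ≤ s) (hs1 : s ≤ 1) :
    (1 + s) * (12 - 5*s^2) / 9 ≤ 169/100 + 9/25*(189/200*(1 - s^2) - 1251/10000) := by
  nlinarith [sq_nonneg (s - 774/1000), mul_nonneg hs (sq_nonneg (s - 774/1000)), mul_nonneg hs (sub_nonneg.2 hs1)]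

/-- The pointwise inequality where the profile exceeds one. -/
theorem polyB {s y : ℝ} (hs : 0 ≤ s) (hs1 : s ≤ 1) (hy : 1 ≤ y) :
    (y + s) * (13 - 5*s^2 - y^2) / 9 ≤
      169/100 + 54/25*((y - 1)*(1 - s^2) + (189/200*(1 - s^2) - 1251/10000)/6) := by
  obtain ⟨t, ht, rfl⟩ : ∃ t, 0 ≤ t ∧ y = 1 + t := ⟨y - 1, by linarith, by ring⟩
  have h0 := polyB0 hs hs1
  rcases le_or_gt s (17/20) with h | h
  · have hb : (14.44 : ℝ)*s^2 - 2*s - 9.44 ≤ 0 := by nlinarith
    nlinarith [mul_nonneg (sq_nonneg t) ht, mul_nonneg (sq_nonneg t) hs,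
      mul_nonpos_of_nonneg_of_nonpos ht hb, sq_nonneg t]
  · have hb : (14.44 : ℝ)*s^2 - 2*s - 9.44 ≤ 9*(-0.074) + 9*2.74*(s - 17/20) := by nlinarith
    have h1 : (1 + s) * (12 - 5*s^2) / 9 ≤
        169/100 + 9/25*(189/200*(1 - s^2) - 1251/10000) - (0.005 + 0.56*(s - 17/20)^2*2.74) := by
      nlinarith [sq_nonneg (s - 774/1000), sq_nonneg (s - 17/20), mul_nonneg (le_of_lt (sub_pos.2 h)) (sub_nonneg.2 hs1)]
    nlinarith [mul_nonneg (sq_nonneg t) ht, mul_le_mul_of_nonneg_left hb ht, mul_nonneg (sq_nonneg t) (le_of_lt (sub_pos.2 h)),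
      sq_nonneg (t - 3.2*(s - 0.88)), sq_nonneg t]
/-- Linear lower bound for the cube of the tangent length. -/
theorem cube_ge {d : ℝ} (hd : 0 ≤ d) : 81/250 * d^2 - 243/6250 ≤ 9/25 * d^3 := by
  nlinarith [mul_nonneg (sq_nonneg (d - 3/5)) (by linarith : (0:ℝ) ≤ d + 3/10)]

/-- Linear lower bound for the cube of the height in terms of its square. -/
theorem height_cube_ge {z : ℝ} (hz : 0 ≤ z) : 189/200 * z^2 - 1251/10000 ≤ z^3 := by
  nlinarith [mul_nonneg (sq_nonneg (z - 63/100)) (by linarith : (0:ℝ) ≤ 2*z + 63/100)]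

end Vale.Agent.P237.Three
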