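import Vale.Agent.P237.Three.Pins
import Vale.Agent.P237.Three.Poly
import Mathlib

/-!
P237, dimension three: the profile lemma (`notes/P237h8/proof.md`, section 3).
-/

noncomputable section

open MeasureTheory Set Real intervalIntegral

namespace Vale.Agent.P237.Three.Profile

variable {f : ℝ → ℝ}

/-- The excess of a profile over the semicircle. -/
def excess (f : ℝ → ℝ) (z : ℝ) : ℝ := f z - √(1 - z ^ 2)

/-- The excess up to a height. -/
def acc (f : ℝ → ℝ) (z : ℝ) : ℝ := ∫ t in (0 : ℝ)..z, excess f t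

theorem sqrt_sub_le (z : ℝ) (hz : z ^ 2 ≤ 1) : √(1 - z ^ 2) ≤ 1 - z ^ 2 / 2 :=
  sqrt_le_iff.2 ⟨by linarith, by nlinarith [sq_nonneg (z ^ 2)]⟩

theorem integral_semi : ∫ x in (0 : ℝ)..1, √(1 - x ^ 2) = π / 4 := by
  have hc : Continuous fun x : ℝ => √(1 - x ^ 2) := by fun_prop
  have h := integral_sqrt_one_sub_sq
  rw [← integral_add_adjacent_intervals (hc.intervalIntegrable _ 0) (hc.intervalIntegrable 0 _)] at h
  have e : ∫ x in (-1 : ℝ)..0, √(1 - x ^ 2) = ∫ x in (0 : ℝ)..1, √(1 - x ^ 2) := by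
    have e1 := intervalIntegral.integral_comp_neg (fun x : ℝ => √(1 - x ^ 2)) (a := 0) (b := 1)
    simp only [neg_sq, neg_zero] at e1
    exact e1.symm
  linarith

section

variable (hf : ConcaveOn ℝ (Icc 0 1) f) (hm : AntitoneOn f (Icc 0 1))
  (hS : ∀ z ∈ Icc (0 : ℝ) 1, √(1 - z ^ 2) ≤ f z)

include hm in
theorem int_f {a b : ℝ} (ha : 0 ≤ a) (hab : a ≤ b) (hb : b ≤ 1) : IntervalIntegrable f volume a b :=
  (hm.mono (by rw [uIcc_of_le hab]; exact Icc_subset_Icc ha hb)).intervalIntegrable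

include hm in
theorem int_excess {a b : ℝ} (ha : 0 ≤ a) (hab : a ≤ b) (hb : b ≤ 1) :
    IntervalIntegrable (excess f) volume a b :=
  (int_f hm ha hab hb).sub
    ((show Continuous fun x : ℝ => √(1 - x ^ 2) by fun_prop).intervalIntegrable a b)

include hS in
theorem excess_nonneg {z : ℝ} (hz : z ∈ Icc (0 : ℝ) 1) : 0 ≤ excess f z := sub_nonneg.2 (hS z hz)

include hm hS in
theorem le_acc {a z : ℝ} (ha : 0 ≤ a) (haz : a ≤ z) (hz : z ≤ 1) {g : ℝ → ℝ} (hg : Continuous g)
    (h : ∀ t ∈ Icc a z, g t ≤ excess f t) : ∫ t in a..z, g t ≤ acc f z := by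
  rw [acc, ← integral_add_adjacent_intervals (int_excess hm le_rfl ha (haz.trans hz))
    (int_excess hm ha haz hz)]
  refine (intervalIntegral.integral_mono_on haz (hg.intervalIntegrable _ _) (int_excess hm ha haz hz) h).trans
    (le_add_of_nonneg_left (intervalIntegral.integral_nonneg ha fun t ht => excess_nonneg hS ?_))
  exact ⟨ht.1, ht.2.trans (haz.trans hz)⟩

include hf hm hS in
/-- Section 3.2 (a): below height one, the excess up to `z` is at least a cubed tangent length. -/
theorem acc_ge_low {z : ℝ} (hz : z ∈ Ioo (0 : ℝ) 1) (hy : f z ≤ 1) :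
    √(f z ^ 2 - (1 - z ^ 2)) ^ 3 / 6 ≤ acc f z := by
  set y := f z
  set d := √(y ^ 2 - (1 - z ^ 2)) with hd
  obtain ⟨z0, z1⟩ := hz
  have hw : 0 < 1 - z ^ 2 := by nlinarith
  have hs0 : 0 < √(1 - z ^ 2) := sqrt_pos.2 hw
  have hsy := hS z ⟨z0.le, z1.le⟩
  have hy0 : 0 < y := hs0.trans_le hsy
  have hd0 : 0 ≤ d := sqrt_nonneg _
  have hd2 : d ^ 2 = y ^ 2 - (1 - z ^ 2) := sq_sqrt (by
    have := pow_le_pow_left₀ (sqrt_nonneg _) hsy 2
    rw [sq_sqrt hw.le] at this; linarith)
  have hD : (0 : ℝ) < 1 + d ^ 2 := by positivity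
  set t0 := (z - y * d) / (1 + d ^ 2) with ht0
  set s0 := (y + z * d) / (1 + d ^ 2) with hs0'
  have hs0pos : 0 < s0 := div_pos (by positivity) hD
  have ht0n : 0 ≤ t0 := by
    refine div_nonneg (sub_nonneg.2 ((sq_le_sq₀ (by positivity) z0.le).1 ?_)) hD.le
    have := mul_nonneg (show 0 ≤ 1 - y ^ 2 by nlinarith) (add_nonneg (sq_nonneg y) (sq_nonneg z))
    rw [mul_pow, hd2]
    linarith
  have hgap : z - t0 = d * s0 := by
    rw [ht0, hs0']; field_simp; ring
  have ht0z : t0 ≤ z := by nlinarith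
  have hunit : s0 ^ 2 = 1 - t0 ^ 2 := by
    rw [ht0, hs0']; field_simp; linear_combination (-(1 + d ^ 2)) * hd2
  have hLz : 1 - t0 * z = y * s0 := by
    rw [ht0, hs0']; field_simp; linear_combination hd2
  have ht01 : t0 ∈ Icc (0 : ℝ) 1 := ⟨ht0n, ht0z.trans z1.le⟩
  have hf0 : s0 ≤ f t0 := by
    have := hS t0 ht01
    rwa [← hunit, sqrt_sq hs0pos.le] at this
  have key : ∀ t ∈ Icc t0 z, 1 / (2 * s0 ^ 3) * (t - t0) ^ 2 ≤ excess f t := by
    intro t ⟨a, b⟩
    have htI : t ∈ Icc (0 : ℝ) 1 := ⟨ht0n.trans a, b.trans z1.le⟩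
    set S := √(1 - t ^ 2) with hSdef
    have hS2 : S ^ 2 = 1 - t ^ 2 := sq_sqrt (by nlinarith [htI.1, htI.2])
    have hSn : 0 ≤ S := sqrt_nonneg _
    set L := (1 - t0 * t) / s0 with hL
    have hLn : 0 ≤ L := div_nonneg (by nlinarith [htI.1, htI.2, ht01.1, ht01.2]) hs0pos.le
    have hLs : L * s0 = 1 - t0 * t := div_mul_cancel₀ _ hs0pos.ne'
    have hLle : L ≤ s0 := by rw [hL, div_le_iff₀ hs0pos]; nlinarith
    have hLf : L ≤ f t := by
      rcases eq_or_lt_of_le ht0z with e | e
      · obtain rfl : t = t0 := le_antisymm (b.trans e.ge) a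
        exact hLle.trans hf0
      · set lam := (z - t) / (z - t0) with hlam
        have hl0 : 0 ≤ lam := div_nonneg (sub_nonneg.2 b) (sub_pos.2 e).le
        have hl1 : 0 ≤ 1 - lam := by
          rw [sub_nonneg, hlam, div_le_one (sub_pos.2 e)]; linarith
        have hc := hf.2 ht01 ⟨z0.le, z1.le⟩ hl0 hl1 (by ring)
        have ht : lam * t0 + (1 - lam) * z = t := by
          rw [hlam]; field_simp [(sub_pos.2 e).ne']; ring
        simp only [smul_eq_mul, ht] at hc
        have h1 : L = lam * s0 + (1 - lam) * y := by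
          rw [hL, div_eq_iff hs0pos.ne', ← ht]
          linear_combination (-lam) * hunit + (1 - lam) * hLz
        nlinarith [mul_le_mul_of_nonneg_left hf0 hl0]
    have e : (L - S) * (L + S) * s0 ^ 2 = (t - t0) ^ 2 := by
      linear_combination (L * s0 + (1 - t0 * t)) * hLs - s0 ^ 2 * hS2 - (1 - t ^ 2) * hunit
    have hSL : S ≤ L := (sq_le_sq₀ hSn hLn).1 (by nlinarith [sq_nonneg (t - t0)])
    have h2 : (t - t0) ^ 2 ≤ (L - S) * (2 * s0 ^ 3) := by
      rw [← e]
      calc (L - S) * (L + S) * s0 ^ 2 ≤ (L - S) * (2 * s0) * s0 ^ 2 :=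
            mul_le_mul_of_nonneg_right (mul_le_mul_of_nonneg_left (by linarith) (by linarith)) (sq_nonneg _)
        _ = _ := by ring
    rw [div_mul_eq_mul_div, one_mul, div_le_iff₀ (by positivity)]
    refine h2.trans (mul_le_mul_of_nonneg_right ?_ (by positivity))
    simp only [excess, ← hSdef]; linarith
  refine le_trans (le_of_eq ?_) (le_acc hm hS ht0n ht0z z1.le (by fun_prop) key)
  rw [intervalIntegral.integral_const_mul, intervalIntegral.integral_comp_sub_right (fun x => x ^ 2),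
    integral_pow, sub_self, hgap]
  field_simp
  ring

include hm hS in
/-- Section 3.2 (b): above height one. -/
theorem acc_ge_high {z : ℝ} (hz : z ∈ Ioo (0 : ℝ) 1) :
    (f z - 1) * z + z ^ 3 / 6 ≤ acc f z := by
  obtain ⟨z0, z1⟩ := hz
  refine le_trans (le_of_eq ?_) (le_acc hm hS le_rfl z0.le z1.le
    (g := fun t => (f z - 1) + t ^ 2 / 2) (by fun_prop) fun t ⟨a, b⟩ => ?_)
  · rw [intervalIntegral.integral_add intervalIntegrable_const
      ((by fun_prop : Continuous fun t : ℝ => t ^ 2 / 2).intervalIntegrable _ _),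
      intervalIntegral.integral_const, intervalIntegral.integral_div, integral_pow]
    simp; ring
  · have h1 := hm ⟨a, b.trans z1.le⟩ ⟨z0.le, z1.le⟩ b
    have h2 := sqrt_sub_le t (by nlinarith)
    simp only [excess]; linarith

include hf hm hS in
/-- Section 3.3: the pointwise inequality. -/
theorem pointwise {z : ℝ} (hz : z ∈ Ioo (0 : ℝ) 1) :
    f z ^ 2 - (1 - z ^ 2) + (4 * (z ^ 2 * f z ^ 2) - f z ^ 4 + (5 * z ^ 4 - 6 * z ^ 2 + 1)) / 9
      ≤ 169 / 100 * excess f z + 54 / 25 * (acc f z * excess f z) := by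
  obtain ⟨z0, z1⟩ := hz
  set y := f z
  set s := √(1 - z ^ 2) with hs
  have hw : 0 < 1 - z ^ 2 := by nlinarith
  have hs2 : s ^ 2 = 1 - z ^ 2 := sq_sqrt hw.le
  have hs0 : 0 ≤ s := sqrt_nonneg _
  have hs1 : s ≤ 1 := sqrt_le_one.2 (by nlinarith)
  have hsy : s ≤ y := hS z ⟨z0.le, z1.le⟩
  have main : (y + s) * (13 - 5 * s ^ 2 - y ^ 2) / 9 ≤ 169 / 100 + 54 / 25 * acc f z := by
    rcases le_total y 1 with hy | hy
    · have h := acc_ge_low hf hm hS ⟨z0, z1⟩ hy
      set d := √(y ^ 2 - (1 - z ^ 2))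
      have hd2 : d ^ 2 = y ^ 2 - s ^ 2 := by
        rw [hs2]; exact sq_sqrt (by nlinarith)
      have h2 := polyA hs0 hsy hy
      have h3 := cube_ge (sqrt_nonneg (y ^ 2 - (1 - z ^ 2)))
      rw [← hd2] at h2
      linarith
    · have h := acc_ge_high hm hS ⟨z0, z1⟩
      have h2 := polyB hs0 hs1 hy
      have h3 := height_cube_ge z0.le
      have h4 := mul_le_mul_of_nonneg_left (show z ^ 2 ≤ z by nlinarith) (sub_nonneg.2 hy)
      rw [show (1 : ℝ) - s ^ 2 = z ^ 2 by linarith] at h2
      linarith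
  have h := mul_le_mul_of_nonneg_left main (sub_nonneg.2 hsy)
  have hx : excess f z = y - s := rfl
  rw [hx]
  have hz2 : z ^ 2 = 1 - s ^ 2 := by linarith
  have hz4 : z ^ 4 = (1 - s ^ 2) ^ 2 := by rw [← hz2]; ring
  rw [hz2, hz4]
  linarith

end

end Vale.Agent.P237.Three.Profile

namespace Vale.Agent.P237.Three

open Profile

/-- Section 3: the profile lemma with its equality case. -/
theorem profileStmt : ProfileStmt := by
  intro f hf hm hS hA
  have hI := int_f hm le_rfl zero_le_one le_rfl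
  have hX := int_excess hm le_rfl zero_le_one le_rfl
  have hf0 : ∀ z ∈ Icc (0 : ℝ) 1, 0 ≤ f z := fun z hz => (sqrt_nonneg _).trans (hS z hz)
  have hP : ∀ n : ℕ, IntervalIntegrable (fun z => f z ^ n) volume 0 1 := fun n =>
    AntitoneOn.intervalIntegrable (by
      rw [uIcc_of_le zero_le_one]
      exact fun a ha b hb hab => pow_le_pow_left₀ (hf0 b hb) (hm ha hb hab) n)
  have hZ : IntervalIntegrable (fun z => z ^ 2 * f z ^ 2) volume 0 1 :=
    (hP 2).continuousOn_mul (by fun_prop)
  have hacc : ContinuousOn (acc f) (Icc 0 1) := by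
    have := continuousOn_primitive_interval (a := 0) (b := 1)
      (((intervalIntegrable_iff').1 hX) : IntegrableOn (excess f) (uIcc 0 1) volume)
    rw [uIcc_of_le zero_le_one] at this
    exact this
  have hGX : IntervalIntegrable (fun z => acc f z * excess f z) volume 0 1 :=
    hX.continuousOn_mul (by rwa [uIcc_of_le zero_le_one])
  set Φ := ∫ z in (0 : ℝ)..1, excess f z with hΦ
  have hsq : ∫ z in (0 : ℝ)..1, acc f z * excess f z = Φ ^ 2 / 2 := by
    have hc : ∀ z ∈ Ioo (0 : ℝ) 1, ContinuousAt (excess f) z := fun z hz => by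
      have h := hf.continuousOn_interior
      rw [interior_Icc] at h
      exact (h.continuousAt (isOpen_Ioo.mem_nhds hz)).sub (by fun_prop)
    have hd : ∀ z ∈ Ioo (0 : ℝ) 1,
        HasDerivAt (fun z => acc f z ^ 2 / 2) (acc f z * excess f z) z := fun z hz => by
      have h1 : HasDerivAt (acc f) (excess f z) z :=
        integral_hasDerivAt_right (int_excess hm le_rfl hz.1.le hz.2.le)
          ((show ContinuousOn (excess f) (Ioo 0 1) from fun x hx => (hc x hx).continuousWithinAt)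
            |>.stronglyMeasurableAtFilter isOpen_Ioo z hz) (hc z hz)
      exact ((h1.fun_pow 2).div_const 2).congr_deriv (by push_cast; ring)
    rw [integral_eq_sub_of_hasDerivAt_of_le zero_le_one ((hacc.pow 2).div_const 2) hd hGX]
    simp [acc, hΦ]
  have hIeq : ∫ z in (0 : ℝ)..1, f z = π / 4 + Φ := by
    rw [hΦ]
    simp only [excess]
    rw [intervalIntegral.integral_sub hI
      ((by fun_prop : Continuous fun x : ℝ => √(1 - x ^ 2)).intervalIntegrable _ _), integral_semi]
    ring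
  have hΦ0 : 0 ≤ Φ := intervalIntegral.integral_nonneg zero_le_one fun z hz => excess_nonneg hS hz
  have hU : (∫ z in (0 : ℝ)..1, f z ^ 2) ≤ 2 / 3 + 169 / 100 * Φ + 27 / 25 * Φ ^ 2 := by
    have hp1 : IntervalIntegrable (fun z : ℝ => 1 - z ^ 2) volume 0 1 :=
      Continuous.intervalIntegrable (by fun_prop) _ _
    have hp2 : IntervalIntegrable (fun z : ℝ => 5 * z ^ 4 - 6 * z ^ 2 + 1) volume 0 1 :=
      Continuous.intervalIntegrable (by fun_prop) _ _
    have hM : IntervalIntegrable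
        (fun z => 4 * (z ^ 2 * f z ^ 2) - f z ^ 4 + (5 * z ^ 4 - 6 * z ^ 2 + 1)) volume 0 1 :=
      ((hZ.const_mul 4).sub (hP 4)).add hp2
    have h := intervalIntegral.integral_mono_on_of_le_Ioo zero_le_one
      (((hP 2).sub hp1).add (hM.div_const 9)) ((hX.const_mul (169 / 100)).add (hGX.const_mul (54 / 25)))
      (fun z hz => pointwise hf hm hS hz)
    rw [intervalIntegral.integral_add ((hP 2).sub hp1) (hM.div_const 9),
      intervalIntegral.integral_sub (hP 2) hp1, intervalIntegral.integral_div,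
      intervalIntegral.integral_add ((hZ.const_mul 4).sub (hP 4)) hp2,
      intervalIntegral.integral_sub (hZ.const_mul 4) (hP 4),
      intervalIntegral.integral_add (hX.const_mul _) (hGX.const_mul _),
      intervalIntegral.integral_const_mul, intervalIntegral.integral_const_mul,
      intervalIntegral.integral_const_mul, hsq, ← hΦ] at h
    have e1 : ∫ z in (0 : ℝ)..1, 1 - z ^ 2 = 2 / 3 := by
      rw [intervalIntegral.integral_sub intervalIntegrable_const
        (Continuous.intervalIntegrable (by fun_prop) _ _), integral_pow]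
      norm_num
    have e2 : ∫ z in (0 : ℝ)..1, 5 * z ^ 4 - 6 * z ^ 2 + 1 = 0 := by
      rw [intervalIntegral.integral_add (Continuous.intervalIntegrable (by fun_prop) _ _)
          intervalIntegrable_const,
        intervalIntegral.integral_sub (Continuous.intervalIntegrable (by fun_prop) _ _)
          (Continuous.intervalIntegrable (by fun_prop) _ _),
        intervalIntegral.integral_const_mul, intervalIntegral.integral_const_mul, integral_pow, integral_pow]
      norm_num
    rw [e1, e2] at h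
    linarith
  have hπ := Real.pi_lt_d4
  have hπ0 := Real.pi_pos
  set c := 3 * π ^ 2 / 32 with hc
  have hc0 : 0 ≤ c := by positivity
  have hgap : 0 < π / 2 - 169 / 100 * c := by rw [hc]; nlinarith
  have hc2 : 27 / 25 * c ≤ 1 := by rw [hc]; nlinarith
  have hbase : c * (2 / 3) = (π / 4) ^ 2 := by rw [hc]; ring
  rw [hIeq]
  have h1 := mul_le_mul_of_nonneg_left hU hc0
  have h2 := mul_le_mul_of_nonneg_right hc2 (sq_nonneg Φ)
  have h3 := mul_nonneg hgap.le hΦ0
  refine ⟨by linarith, fun he z hz => ?_⟩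
  have hzero : Φ = 0 := by
    have : (π / 2 - 169 / 100 * c) * Φ = 0 := by linarith
    exact (mul_eq_zero.1 this).resolve_left hgap.ne'
  by_contra hne
  have hzI : z ∈ Icc (0 : ℝ) 1 := ⟨hz.1, hz.2.le⟩
  have hgt : √(1 - z ^ 2) < f z := lt_of_le_of_ne (hS z hzI) (Ne.symm hne)
  have h1z : 0 < 1 - z := sub_pos.2 hz.2
  set g : ℝ → ℝ := fun t => max ((1 - t) / (1 - z) * f z - √(1 - t ^ 2)) 0 with hg
  have hgc : Continuous g := by rw [hg]; fun_prop
  have hpos : 0 < ∫ t in z..1, g t := by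
    refine intervalIntegral.integral_pos hz.2 hgc.continuousOn (fun t _ => le_max_right _ _)
      ⟨z, ⟨le_rfl, hz.2.le⟩, ?_⟩
    simp only [hg]
    rw [div_self h1z.ne', one_mul]
    exact lt_max_of_lt_left (sub_pos.2 hgt)
  have hle : ∫ t in z..1, g t ≤ Φ := by
    refine le_acc hm hS hz.1 hz.2.le le_rfl hgc fun t ⟨a, b⟩ => ?_
    have ht : t ∈ Icc (0 : ℝ) 1 := ⟨hz.1.trans a, b⟩
    refine max_le (sub_le_sub_right ?_ _) (excess_nonneg hS ht)
    set lam := (1 - t) / (1 - z) with hlam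
    have hl : 0 ≤ lam := div_nonneg (by linarith) h1z.le
    have hl' : 0 ≤ 1 - lam := by rw [sub_nonneg, hlam, div_le_one h1z]; linarith
    have hcc := hf.2 hzI ⟨zero_le_one, le_rfl⟩ hl hl' (by ring)
    have e : lam * z + (1 - lam) * 1 = t := by rw [hlam]; field_simp; ring
    simp only [smul_eq_mul, e] at hcc
    have := mul_nonneg hl' (hf0 1 ⟨zero_le_one, le_rfl⟩)
    linarith
  linarith

end Vale.Agent.P237.Three
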