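import Vale.Agent.P237.Statement

/-!
P237: the statement of Petty's projection inequality in dimension three.
-/

noncomputable section

open MeasureTheory Set
open scoped Pointwise

namespace Vale.Agent.P237.Three

/-- Petty's inequality in dimension three. -/
def PettyThree : Prop :=
  ∀ K : Set (E 3), IsCompact K → Convex ℝ K → (interior K).Nonempty →
    kappa 2 ^ 3 * kappa 3 ^ ((2 : ℤ) - 3) * vol K ^ 2 ≤ vol (projectionBody K)

/-- In dimension three Petty's inequality is an equality exactly for ellipsoids. -/
def PettyThreeEquality : Prop :=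
  ∀ K : Set (E 3), IsCompact K → Convex ℝ K → (interior K).Nonempty →
    (vol (projectionBody K) = kappa 2 ^ 3 * kappa 3 ^ ((2 : ℤ) - 3) * vol K ^ 2 ↔
      ∃ (g : E 3) (S : E 3 ≃ₗ[ℝ] E 3), K = (fun x => g + S x) '' Metric.closedBall (0 : E 3) 1)

end Vale.Agent.P237.Three
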