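import Vale.Agent.P237.Three.Pins
import Mathlib.Analysis.InnerProductSpace.Adjoint
import Mathlib.Analysis.LocallyConvex.Separation

/-!
P237, dimension three: elementary facts about the support function.
-/

noncomputable section

open MeasureTheory Set
open scoped Pointwise RealInnerProductSpace

namespace Vale.Agent.P237.Three

variable {K : Set (E 3)}

theorem body3_nonempty (hK : Body3 K) : K.Nonempty := hK.2.2.mono interior_subset

theorem le_supp (hK : IsCompact K) {x : E 3} (hx : x ∈ K) (v : E 3) : ⟪x, v⟫ ≤ supp K v :=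
  le_csSup (hK.image (f := fun y => ⟪y, v⟫) (by fun_prop)).bddAbove ⟨x, hx, rfl⟩

theorem supp_le (hK : K.Nonempty) {v : E 3} {c : ℝ} (h : ∀ x ∈ K, ⟪x, v⟫ ≤ c) : supp K v ≤ c :=
  csSup_le (hK.image _) (by rintro _ ⟨x, hx, rfl⟩; exact h x hx)

theorem exists_supp (hK : IsCompact K) (hne : K.Nonempty) (v : E 3) :
    ∃ x ∈ K, ⟪x, v⟫ = supp K v := by
  obtain ⟨x, hx, hmax⟩ := hK.exists_isMaxOn hne (f := fun y => ⟪y, v⟫) (by fun_prop)
  exact ⟨x, hx, le_antisymm (le_supp hK hx v) (supp_le hne fun y hy => hmax hy)⟩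

theorem supp_smul (hK : IsCompact K) (hne : K.Nonempty) {c : ℝ} (hc : 0 ≤ c) (v : E 3) :
    supp K (c • v) = c * supp K v := by
  refine le_antisymm (supp_le hne fun x hx => ?_) ?_
  · rw [real_inner_smul_right]
    exact mul_le_mul_of_nonneg_left (le_supp hK hx v) hc
  · obtain ⟨x, hx, he⟩ := exists_supp hK hne v
    rw [← he, ← real_inner_smul_right]
    exact le_supp hK hx _

theorem supp_image (S : E 3 →ₗ[ℝ] E 3) (K : Set (E 3)) (v : E 3) :
    supp (S '' K) v = supp K (LinearMap.adjoint S v) := by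
  rw [supp, supp, image_image]
  congr 1
  exact image_congr fun x _ => (LinearMap.adjoint_inner_right S x v).symm

theorem continuous_supp (hK : IsCompact K) (hne : K.Nonempty) : Continuous (supp K) := by
  obtain ⟨R, hR⟩ := hK.isBounded.exists_norm_le
  refine (LipschitzWith.of_le_add_mul (Real.toNNReal R) fun v w => ?_).continuous
  obtain ⟨x, hx, he⟩ := exists_supp hK hne v
  have h1 := le_supp hK hx w
  have h2 : ⟪x, v - w⟫ ≤ Real.toNNReal R * dist v w := by
    refine (real_inner_le_norm _ _).trans ?_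
    rw [dist_eq_norm]
    exact mul_le_mul_of_nonneg_right ((hR x hx).trans (Real.le_coe_toNNReal R)) (norm_nonneg _)
  rw [inner_sub_right] at h2
  linarith

theorem mem_of_supp (hK : IsCompact K) (hc : Convex ℝ K) (hne : K.Nonempty) {y : E 3}
    (h : ∀ v : E 3, ⟪y, v⟫ ≤ supp K v) : y ∈ K := by
  by_contra hy
  obtain ⟨f, u, hu, hfy⟩ := geometric_hahn_banach_closed_point hc hK.isClosed hy
  set a := (InnerProductSpace.toDual ℝ (E 3)).symm f
  have hf : ∀ x, f x = ⟪x, a⟫ := fun x => by
    rw [real_inner_comm, InnerProductSpace.toDual_symm_apply]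
  obtain ⟨x, hx, he⟩ := exists_supp hK hne a
  linarith [h a, hu x hx, hf x, hf y]

theorem supp_pos (hK : Body3 K) (hs : IsSym K) {v : E 3} (hv : v ≠ 0) : 0 < supp K v := by
  obtain ⟨x₀, hx₀⟩ := hK.2.2
  obtain ⟨r, hr, hball⟩ := Metric.nhds_basis_closedBall.mem_iff.1 (mem_interior_iff_mem_nhds.1 hx₀)
  set w := (r / ‖v‖) • v
  have hw : ‖w‖ = r := by
    rw [norm_smul, Real.norm_of_nonneg (by positivity), div_mul_cancel₀]
    exact norm_ne_zero_iff.2 hv
  have h1 := le_supp hK.1 (hball (show x₀ + w ∈ _ by simp [Metric.mem_closedBall, hw])) v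
  have h2 := le_supp hK.1 (hs _ (interior_subset hx₀)) v
  have h3 : ⟪w, v⟫ = r * ‖v‖ := by
    rw [real_inner_smul_left, real_inner_self_eq_norm_sq]
    field_simp
  rw [inner_add_left] at h1
  rw [inner_neg_left] at h2
  have : 0 < r * ‖v‖ := mul_pos hr (norm_pos_iff.2 hv)
  linarith

end Vale.Agent.P237.Three
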