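import Vale.Agent.P237.Three.Planar
import Vale.Agent.P237.Cylinder
import Vale.Agent.P237.Three.Supp

/-!
P237, dimension three: what a pair of points in two opposite slices contributes to a shadow.
-/

noncomputable section

open MeasureTheory Set Real
open scoped Pointwise RealInnerProductSpace

namespace Vale.Agent.P237.Three

/-- A point of space from its height and its planar part. -/
def lift (t : ℝ) (y : Fin 2 → ℝ) : E 3 := WithLp.toLp 2 (Fin.cons t y)

theorem cons_two (t : ℝ) (y : Fin 2 → ℝ) : (Fin.cons t y : Fin 3 → ℝ) 2 = y 1 := rfl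

theorem mem_slice0 {K : Set (E 3)} {t : ℝ} {y : Fin 2 → ℝ} :
    y ∈ Sharp.slice0 (coords K) t ↔ lift t y ∈ K := Iff.rfl

theorem inner_lift (t s : ℝ) (y v : Fin 2 → ℝ) :
    ⟪lift t y, lift s v⟫ = t * s + y 0 * v 0 + y 1 * v 1 := by
  simp [lift, PiLp.inner_apply, Fin.sum_univ_three, Fin.cons_zero, mul_comm]
  rfl

theorem measurableSet_shadowCylinder {K : Set (E 3)} (hK : IsCompact K) {w : E 3} (hw : ‖w‖ = 1) :
    MeasurableSet (shadowCylinder K w) := by
  have hproj : IsCompact ((fun x => x - ⟪w, x⟫ • w) '' K) := hK.image (by fun_prop)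
  have heq : shadowCylinder K w = (fun x => ⟪w, x⟫) ⁻¹' Icc 0 1 ∩
      (fun x => x - ⟪w, x⟫ • w) ⁻¹' ((fun x => x - ⟪w, x⟫ • w) '' K) := by
    ext x
    refine and_congr_right fun _ => ⟨?_, ?_⟩
    · rintro ⟨s, hs⟩
      refine ⟨_, hs, ?_⟩
      simp [inner_add_right, real_inner_smul_right, hw, add_smul]
    · rintro ⟨k, hk, hkx⟩
      refine ⟨⟪w, k⟫ - ⟪w, x⟫, ?_⟩
      refine mem_of_eq_of_mem ?_ hk
      simp only at hkx
      calc x + (⟪w, k⟫ - ⟪w, x⟫) • w = (x - ⟪w, x⟫ • w) + ⟪w, k⟫ • w := by rw [sub_smul]; abel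
        _ = k := by rw [← hkx]; abel
  rw [heq]
  exact ((isClosed_Icc.preimage (by fun_prop)).inter
    (hproj.isClosed.preimage (by fun_prop))).measurableSet

theorem shadowCylinder_finite {K : Set (E 3)} (hK : IsCompact K) {w : E 3} (hw : ‖w‖ = 1) :
    volume (shadowCylinder K w) < ⊤ := by
  obtain ⟨R, hR⟩ := hK.isBounded.exists_norm_le
  refine (measure_mono ?_).trans_lt (measure_closedBall_lt_top (x := (0 : E 3)) (r := 1 + 2 * R))
  rintro x ⟨⟨h0, h1⟩, s, hs⟩
  have hk := hR _ hs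
  have hi : |⟪w, x + s • w⟫| ≤ R := by
    refine (abs_real_inner_le_norm _ _).trans ?_
    rwa [hw, one_mul]
  rw [inner_add_right, real_inner_smul_right, real_inner_self_eq_norm_sq, hw, one_pow, mul_one,
    abs_le] at hi
  have hs' : |s| ≤ 1 + R := abs_le.2 ⟨by linarith, by linarith⟩
  have h2 : ‖x‖ ≤ ‖x + s • w‖ + |s| := by
    have := norm_sub_le (x + s • w) (s • w)
    rwa [add_sub_cancel_right, norm_smul, hw, mul_one, Real.norm_eq_abs] at this
  rw [Metric.mem_closedBall, dist_zero_right]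
  linarith

/-- Two points in one slice, carried to the slices between it and its mirror image. -/
theorem slice_cylinder_ge {K : Set (E 3)} (hc : Convex ℝ K) (hs : IsSym K) {h : ℝ} (hh : 0 < h)
    {a b : Fin 2 → ℝ} (ha : a ∈ Sharp.slice0 (coords K) h) (hb : b ∈ Sharp.slice0 (coords K) h)
    {w : Fin 2 → ℝ} (hw : w 0 ^ 2 + w 1 ^ 2 = 1) {z : ℝ} (hz : |z| ≤ h) :
    ENNReal.ofReal |(a 0 - b 0) * w 1 - (a 1 - b 1) * w 0| ≤
      volume (Sharp.slice0 (coords (shadowCylinder K (lift 0 w))) z) := by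
  obtain ⟨hz1, hz2⟩ := abs_le.1 hz
  set l := (z + h) / (2 * h)
  have hl0 : 0 ≤ l := div_nonneg (by linarith) (by linarith)
  have hl1 : l ≤ 1 := (div_le_one (by linarith)).2 (by linarith)
  have hlz : l * h + (1 - l) * -h = z := by simp only [l]; field_simp; ring
  rw [mem_slice0] at ha hb
  have hneg : ∀ c : Fin 2 → ℝ, -lift h c = lift (-h) (-c) := fun c => by
    ext i; refine Fin.cases ?_ (fun j => ?_) i <;> simp [lift]
  have hmem : ∀ c d : Fin 2 → ℝ, lift h c ∈ K → lift h d ∈ K →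
      lift z (l • c + (1 - l) • -d) ∈ K := by
    intro c d hc' hd'
    have h1 := hc hc' (hs _ hd') hl0 (sub_nonneg.2 hl1) (by ring)
    refine mem_of_eq_of_mem ?_ h1
    rw [hneg]
    ext i
    refine Fin.cases ?_ (fun j => ?_) i <;> simp [lift]
    linarith
  set a' := l • a + (1 - l) • -b
  set b' := l • b + (1 - l) • -a
  set p := b' 0 * w 1 - b' 1 * w 0
  set q := a' 0 * w 1 - a' 1 * w 0
  have hpq : q - p = (a 0 - b 0) * w 1 - (a 1 - b 1) * w 0 := by
    simp [p, q, a', b']; ring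
  rw [← hpq, ← volume_planar_image w hw p q]
  refine measure_mono ?_
  rintro _ ⟨x, hx, rfl⟩
  have hx0 : x 0 ∈ Icc (0 : ℝ) 1 := by simpa using hx 0 trivial
  have hx1 : x 1 ∈ uIcc p q := by simpa using hx 1 trivial
  rw [mem_slice0, shadowCylinder, mem_ofPred_eq]
  refine ⟨?_, ?_⟩
  · rw [inner_lift]
    convert hx0 using 1
    simp
    linear_combination (x 0) * hw
  · rw [← segment_eq_uIcc, segment_eq_image] at hx1
    obtain ⟨θ, ⟨hθ0, hθ1⟩, hθ⟩ := hx1
    set k := (1 - θ) • b' + θ • a'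
    have hk : lift z k ∈ K := by
      refine mem_of_eq_of_mem ?_ (hc (hmem b a hb ha) (hmem a b ha hb) (sub_nonneg.2 hθ1) hθ0
        (by ring))
      ext i
      refine Fin.cases ?_ (fun j => ?_) i <;> simp [lift, k, a', b'] <;> ring
    have hk1 : k 0 * w 1 - k 1 * w 0 = x 1 := by
      rw [← hθ]; simp [k, p, q]; ring
    refine ⟨k 0 * w 0 + k 1 * w 1 - x 0, ?_⟩
    refine mem_of_eq_of_mem ?_ hk
    ext i
    refine Fin.cases ?_ (fun j => ?_) i
    · simp [lift]
    · fin_cases j <;> simp [lift, cons_two] <;> rw [← hk1]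
      · linear_combination (k 0) * hw
      · linear_combination (k 1) * hw

/-- The part of the shadow cylinder within a band of heights, and what a shell adds to it. -/
theorem band_add {K : Set (E 3)} (hK : IsCompact K) (hc : Convex ℝ K) (hs : IsSym K) {h₀ h : ℝ}
    (h0 : 0 ≤ h₀) (hh : h₀ < h) {a b : Fin 2 → ℝ} (ha : a ∈ Sharp.slice0 (coords K) h)
    (hb : b ∈ Sharp.slice0 (coords K) h) {w : Fin 2 → ℝ} (hw : w 0 ^ 2 + w 1 ^ 2 = 1) :
    (volume (coords (shadowCylinder K (lift 0 w)) ∩ {x | x 0 ∈ Icc (-h₀) h₀})).toReal +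
        2 * (h - h₀) * |(a 0 - b 0) * w 1 - (a 1 - b 1) * w 0| ≤
      (volume (coords (shadowCylinder K (lift 0 w)) ∩ {x | x 0 ∈ Icc (-h) h})).toReal := by
  have hn : ‖lift 0 w‖ = 1 := by
    rw [EuclideanSpace.norm_eq, Real.sqrt_eq_one]
    simpa [Fin.sum_univ_three, lift, cons_two] using hw
  set M := shadowCylinder K (lift 0 w)
  have hM : MeasurableSet (coords M) :=
    (measurableSet_shadowCylinder hK hn).preimage (by fun_prop)
  have hfin : ∀ S : Set ℝ, volume (coords M ∩ {x | x 0 ∈ S}) < ⊤ := fun S => by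
    refine (measure_mono inter_subset_left).trans_lt ?_
    rw [coords, (PiLp.volume_preserving_toLp _).measure_preimage
      (measurableSet_shadowCylinder hK hn).nullMeasurableSet]
    exact shadowCylinder_finite hK hn
  set c := |(a 0 - b 0) * w 1 - (a 1 - b 1) * w 0|
  have hsub : Icc (-h₀) h₀ ⊆ Icc (-h) h := Icc_subset_Icc (by linarith) hh.le
  have key : volume (coords M ∩ {x | x 0 ∈ Icc (-h₀) h₀}) + ENNReal.ofReal (2 * (h - h₀) * c) ≤
      volume (coords M ∩ {x | x 0 ∈ Icc (-h) h}) := by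
    rw [Sharp.volume_below_eq hM _ measurableSet_Icc, Sharp.volume_below_eq hM _ measurableSet_Icc]
    conv_rhs => rw [← union_sdiff_cancel hsub,
      lintegral_union (measurableSet_Icc.diff measurableSet_Icc) disjoint_sdiff_right]
    gcongr
    calc ENNReal.ofReal (2 * (h - h₀) * c)
        = ∫⁻ _ in Icc (-h) h \ Icc (-h₀) h₀, ENNReal.ofReal c := by
          rw [setLIntegral_const, measure_sdiff hsub measurableSet_Icc.nullMeasurableSet
            (by simp), Real.volume_Icc, Real.volume_Icc, ← ENNReal.ofReal_sub _ (by linarith),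
            ← ENNReal.ofReal_mul (abs_nonneg _)]
          congr 1; ring
      _ ≤ _ := setLIntegral_mono' (measurableSet_Icc.diff measurableSet_Icc) fun z hz =>
          slice_cylinder_ge hc hs (by linarith) ha hb hw (abs_le.2 hz.1)
  have := ENNReal.toReal_mono (hfin _).ne key
  have hpos : 0 ≤ 2 * (h - h₀) * c := mul_nonneg (by linarith) (abs_nonneg _)
  rwa [ENNReal.toReal_add (hfin _).ne ENNReal.ofReal_ne_top, ENNReal.toReal_ofReal hpos] at this

theorem band_le {K : Set (E 3)} (hK : IsCompact K) {w : E 3} (hw : ‖w‖ = 1) (S : Set ℝ) :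
    (volume (coords (shadowCylinder K w) ∩ {x | x 0 ∈ S})).toReal ≤ vol (shadowCylinder K w) := by
  refine ENNReal.toReal_mono (shadowCylinder_finite hK hw).ne ?_
  rw [← (PiLp.volume_preserving_toLp _).measure_preimage
    (measurableSet_shadowCylinder hK hw).nullMeasurableSet]
  exact measure_mono inter_subset_left

end Vale.Agent.P237.Three
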