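import Vale.Agent.P237.Three.Supp
import Vale.Agent.P237.Sharp.Ellipsoid
import Mathlib.MeasureTheory.Measure.Lebesgue.VolumeOfBalls
import Mathlib.Analysis.Convex.Topology

/-!
P237, dimension three, sections 4.3 and 4.4: Petty's inequality with its equality case from the
class reduction, the minimiser and the key lemma.
-/

noncomputable section

open MeasureTheory Set Metric Real
open scoped RealInnerProductSpace Pointwise

namespace Vale.Agent.P237.Three

/-- The constant of the statement is `pConst`. -/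
lemma const_eq_pConst : kappa 2 ^ 3 * kappa 3 ^ ((2 : ℤ) - 3) = pConst := by
  have h2 : kappa 2 = π := by
    rw [kappa, EuclideanSpace.volume_ball_fin_two]
    simp [pi_pos.le]
  have h3 : kappa 3 = π * 4 / 3 := by
    rw [kappa, EuclideanSpace.volume_ball_fin_three]
    simp [(by positivity : 0 ≤ π * 4 / 3)]
  rw [h2, h3, show ((2 : ℤ) - 3) = -1 by norm_num, zpow_neg_one, pConst]
  field_simp

lemma vol_pos_of_body {K : Set (E 3)} (hK : Body3 K) : 0 < vol K :=
  ENNReal.toReal_pos (Measure.measure_pos_of_nonempty_interior volume hK.2.2).ne'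
    hK.1.measure_lt_top.ne

lemma Body3.smul_pos {K : Set (E 3)} (hK : Body3 K) {c : ℝ} (hc : 0 < c) : Body3 (c • K) :=
  ⟨hK.1.smul c, hK.2.1.smul c, by
    rw [interior_smul₀ hc.ne']; exact hK.2.2.smul_set⟩

lemma IsSym.smul {K : Set (E 3)} (hK : IsSym K) (c : ℝ) : IsSym (c • K) := by
  rintro _ ⟨x, hx, rfl⟩
  exact ⟨-x, hK x hx, smul_neg c x⟩

lemma supp_smul_set {c : ℝ} (hc : 0 ≤ c) (K : Set (E 3)) (v : E 3) :
    supp (c • K) v = c * supp K v := by
  have : (fun x => ⟪x, v⟫) '' (c • K) = c • ((fun x => ⟪x, v⟫) '' K) := by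
    rw [← image_smul, ← image_smul, image_image, image_image]
    exact image_congr fun x _ => by simp [real_inner_smul_left]
  rw [supp, this, Real.sSup_smul_of_nonneg hc, smul_eq_mul, supp]

/-- Two symmetric bodies are translates only by zero. -/
lemma eq_of_translate {K C : Set (E 3)} (hC : Body3 C) (hsC : IsSym C) (hsK : IsSym K) {g : E 3}
    (h : K = (fun x => g + x) '' C) : K = C := by
  obtain ⟨x, hx, hmax⟩ := hC.1.exists_isMaxOn (hC.2.2.mono interior_subset)
    (f := fun y => ⟪g, y⟫) (by fun_prop)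
  obtain ⟨y, hy, hgy⟩ : -(g + x) ∈ (fun x => g + x) '' C := h ▸ hsK _ (h ▸ ⟨x, hx, rfl⟩)
  have hle : ⟪g, -y⟫ ≤ ⟪g, x⟫ := hmax (hsC _ hy)
  have hyy : -y = g + g + x := by
    rw [eq_sub_of_add_eq' hgy]
    abel
  rw [hyy, inner_add_right, inner_add_right] at hle
  have hg : g = 0 := inner_self_eq_zero.1 <| le_antisymm (by linarith) real_inner_self_nonneg
  simp [h, hg]

/-- When the class reduction is sharp, the body is a translate of a dilate of its second
projection body. -/
lemma eq_translate_smul_iter (hS : SupportStmt) (hR : ReductionStmt) (hMid : MidpointStmt)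
    {K : Set (E 3)} (hK : Body3 K)
    (hge : vol (projectionBody K) ^ 3 ≤ vol (projectionBody (projectionBody K)) * vol K ^ 2) :
    let C := (vol K / vol (projectionBody K)) • projectionBody (projectionBody K)
    Body3 C ∧ IsSym C ∧ vol C = vol K ∧ ∃ g : E 3, K = (fun x => g + x) '' C := by
  intro C
  obtain ⟨hZ, -, -⟩ := hS K hK
  obtain ⟨hL, hLs, -⟩ := hS _ hZ
  obtain ⟨hle, hmid⟩ := hR K hK
  have hz := vol_pos_of_body hZ
  have hc : 0 < vol K / vol (projectionBody K) := div_pos (vol_pos_of_body hK) hz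
  have hv : vol C = vol K := by
    rw [show vol C = _ from Sharp.vol_smul hc.le _]
    field_simp
    linear_combination vol K * le_antisymm hle hge
  exact ⟨hL.smul_pos hc, hLs.smul _, hv, hMid K C hK (hL.smul_pos hc) hv (hmid hge)⟩

/-- Petty's inequality for symmetric bodies: compare a minimiser with its projection body. -/
theorem petty_sym (hS : SupportStmt) (hR : ReductionStmt) (hK : KeyStmt) (hM : MinimiserStmt)
    (hMid : MidpointStmt) {K : Set (E 3)} (hb : Body3 K) (hs : IsSym K) :
    pConst * vol K ^ 2 ≤ vol (projectionBody K) := by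
  obtain ⟨K₀, hb₀, hs₀, hmin⟩ := hM
  obtain ⟨hZ, hZs, -⟩ := hS K₀ hb₀
  obtain ⟨hL, hLs, -⟩ := hS _ hZ
  have hz := vol_pos_of_body hZ
  have hk := vol_pos_of_body hb₀
  have hge : vol (projectionBody K₀) ^ 3 ≤
      vol (projectionBody (projectionBody K₀)) * vol K₀ ^ 2 := by
    linarith [hmin _ hZ hZs, show vol (projectionBody K₀) * vol (projectionBody K₀) ^ 2
      = vol (projectionBody K₀) ^ 3 by ring]
  obtain ⟨hC, hCs, -, g, hg⟩ := eq_translate_smul_iter hS hR hMid hb₀ hge
  have hKC := eq_of_translate hC hCs hs₀ hg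
  obtain ⟨e, he, hkey, -⟩ := hK K₀ hb₀ hs₀
  have hpos := supp_pos hL hLs (show e ≠ 0 by rintro rfl; simp at he)
  have hsupp : supp K₀ e = vol K₀ / vol (projectionBody K₀) *
      supp (projectionBody (projectionBody K₀)) e := by
    conv_lhs => rw [hKC]
    exact supp_smul_set (div_pos hk hz).le _ _
  rw [hsupp, ← mul_assoc] at hkey
  have h1 := (mul_le_iff_le_one_left hpos).1 hkey
  have h2 : pConst * vol K₀ ^ 2 ≤ vol (projectionBody K₀) := by
    rw [← mul_div_assoc, div_le_one hz] at h1
    linarith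
  have h3 := hmin K hb hs
  refine le_of_mul_le_mul_right ?_ (pow_pos hk 2)
  calc pConst * vol K ^ 2 * vol K₀ ^ 2 = pConst * vol K₀ ^ 2 * vol K ^ 2 := by ring
    _ ≤ vol (projectionBody K₀) * vol K ^ 2 := by gcongr
    _ ≤ vol (projectionBody K) * vol K₀ ^ 2 := h3

/-- Petty's inequality in dimension three, with equality exactly for ellipsoids. -/
theorem petty_three (hS : SupportStmt) (hR : ReductionStmt) (hK : KeyStmt) (hM : MinimiserStmt)
    (hMid : MidpointStmt) : PettyThree ∧ PettyThreeEquality := by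
  have main : ∀ K : Set (E 3), Body3 K → pConst * vol K ^ 2 ≤ vol (projectionBody K) := by
    intro K hb
    obtain ⟨hZ, hZs, -⟩ := hS K hb
    have h1 := petty_sym hS hR hK hM hMid hZ hZs
    refine le_of_mul_le_mul_right ?_ (pow_pos (vol_pos_of_body hZ) 2)
    calc pConst * vol K ^ 2 * vol (projectionBody K) ^ 2
        = pConst * vol (projectionBody K) ^ 2 * vol K ^ 2 := by ring
      _ ≤ vol (projectionBody (projectionBody K)) * vol K ^ 2 := by gcongr
      _ ≤ vol (projectionBody K) ^ 3 := (hR K hb).1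
      _ = vol (projectionBody K) * vol (projectionBody K) ^ 2 := by ring
  refine ⟨fun K h1 h2 h3 => const_eq_pConst.symm ▸ main K ⟨h1, h2, h3⟩,
    fun K h1 h2 h3 => ⟨fun heq => ?_, ?_⟩⟩
  · rw [const_eq_pConst] at heq
    have hb : Body3 K := ⟨h1, h2, h3⟩
    obtain ⟨hZ, hZs, -⟩ := hS K hb
    obtain ⟨hL, hLs, -⟩ := hS _ hZ
    have hz := vol_pos_of_body hZ
    have hk := vol_pos_of_body hb
    have hge : vol (projectionBody K) ^ 3 ≤
        vol (projectionBody (projectionBody K)) * vol K ^ 2 := by
      calc vol (projectionBody K) ^ 3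
          = pConst * vol (projectionBody K) ^ 2 * vol K ^ 2 := by rw [heq]; ring
        _ ≤ vol (projectionBody (projectionBody K)) * vol K ^ 2 := by
            gcongr; exact petty_sym hS hR hK hM hMid hZ hZs
    obtain ⟨hC, hCs, hvC, g, hg⟩ := eq_translate_smul_iter hS hR hMid hb hge
    set C := (vol K / vol (projectionBody K)) • projectionBody (projectionBody K) with hCdef
    have hpb : projectionBody K = projectionBody C := by
      conv_lhs => rw [hg, Sharp.projectionBody_translate]
    obtain ⟨e, -, -, heqc⟩ := hK C hC hCs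
    obtain ⟨S, hSC⟩ := heqc (by
      rw [← hpb, hvC]
      refine le_of_eq ?_
      rw [hCdef, supp_smul_set (div_pos hk hz).le, ← mul_assoc, ← mul_div_assoc, heq,
        show pConst * vol K * vol K / (pConst * vol K ^ 2) = 1 by
          rw [mul_assoc, ← sq]; exact div_self (heq ▸ hz).ne', one_mul])
    exact ⟨g, S, by rw [hg, hSC, image_image]⟩
  · rintro ⟨g, S, rfl⟩
    simpa using Sharp.petty_eq_of_ellipsoid (by norm_num : 1 ≤ 3) g S

end Vale.Agent.P237.Three
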