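import Vale.Agent.P237.Three.Pins
import Vale.Agent.P237.Sharp.SliceEquality

/-!
P237, dimension three: interfaces inside the proof of `KeyStmt` (`notes/P237h8/proof.md`, section 2).
-/

noncomputable section

open MeasureTheory Set Real
open scoped Pointwise RealInnerProductSpace

namespace Vale.Agent.P237.Three

/-- The body in plain coordinates. -/
def coords (K : Set (E 3)) : Set (Fin 3 → ℝ) := WithLp.toLp 2 ⁻¹' K

/-- The radius of a disc of the area of the slice at height `z`, put to zero from height one on. -/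
def profile (K : Set (E 3)) (z : ℝ) : ℝ :=
  if z < 1 then √(Sharp.area (coords K) z / π) else 0

/-- The position of section 2.1. -/
def Positioned (K : Set (E 3)) : Prop :=
  Body3 K ∧ IsSym K ∧ Metric.closedBall (0 : E 3) 1 ⊆ K ∧ (∀ x ∈ K, |x 0| ≤ 1) ∧
    ∀ i : Fin 3, ∫ x in K, x i ^ 2 = ∫ x in K, x 0 ^ 2

/-- Every symmetric body has a positioned linear image. -/
def PositionStmt : Prop :=
  ∀ K : Set (E 3), Body3 K → IsSym K → ∃ S : E 3 ≃ₗ[ℝ] E 3, Positioned (S '' K)

/-- Sections 2.2 and 2.3. -/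
def SlicesStmt : Prop :=
  ∀ K : Set (E 3), Positioned K →
    ConcaveOn ℝ (Icc 0 1) (profile K) ∧ AntitoneOn (profile K) (Icc 0 1) ∧
    (∀ z ∈ Icc (0 : ℝ) 1, √(1 - z ^ 2) ≤ profile K z) ∧
    (∫ z in (0 : ℝ)..1, profile K z ^ 4) ≤ 4 * ∫ z in (0 : ℝ)..1, z ^ 2 * profile K z ^ 2 ∧
    vol K = 2 * π * ∫ z in (0 : ℝ)..1, profile K z ^ 2 ∧
    ((∀ z ∈ Ico (0 : ℝ) 1, profile K z = √(1 - z ^ 2)) → K = Metric.closedBall (0 : E 3) 1)

/-- Section 2.4. -/
def ShadowStmt : Prop :=
  ∀ K : Set (E 3), Positioned K →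
    16 * π * (∫ z in (0 : ℝ)..1, profile K z) ^ 2 ≤
      supp (projectionBody (projectionBody K)) (EuclideanSpace.single 0 1)

end Vale.Agent.P237.Three
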