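import Vale.Agent.P237.Three.KeyPins
import Mathlib.LinearAlgebra.Matrix.ToLin
import Mathlib.MeasureTheory.Measure.Lebesgue.EqHaar

/-!
P237, dimension three: planar lemmas for the shadow bound (section 2.4 of the proof note).
-/

noncomputable section

open MeasureTheory Set Real
open scoped Pointwise

namespace Vale.Agent.P237.Three

/-- The planar area as a real number. -/
def area2 (S : Set (Fin 2 → ℝ)) : ℝ := (volume S).toReal

/-- The quarter turn of the plane. -/
def quarter : (Fin 2 → ℝ) →ₗ[ℝ] (Fin 2 → ℝ) := Matrix.toLin' !![0, -1; 1, 0]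

theorem quarter_apply (y : Fin 2 → ℝ) : quarter y = ![-y 1, y 0] := by
  ext i
  fin_cases i <;> simp [quarter, Matrix.toLin'_apply, Matrix.mulVec, dotProduct, Fin.sum_univ_two,
    Matrix.vecHead, Matrix.vecTail]

theorem area2_quarter (S : Set (Fin 2 → ℝ)) : area2 (quarter '' S) = area2 S := by
  rw [area2, Measure.addHaar_image_linearMap, area2]
  simp [quarter, LinearMap.det_toLin', Matrix.det_fin_two_of]

theorem area2_smul {c : ℝ} (hc : 0 ≤ c) (S : Set (Fin 2 → ℝ)) :
    area2 (c • S) = c ^ 2 * area2 S := by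
  rw [area2, Measure.addHaar_smul_of_nonneg volume hc, ENNReal.toReal_mul, area2]
  simp [ENNReal.toReal_ofReal (pow_nonneg hc 2)]

theorem area2_neg (S : Set (Fin 2 → ℝ)) : area2 (-S) = area2 S := by
  rw [area2, area2, Measure.measure_neg]

theorem area2_mono {S T : Set (Fin 2 → ℝ)} (hT : IsCompact T) (h : S ⊆ T) : area2 S ≤ area2 T :=
  ENNReal.toReal_mono hT.measure_lt_top.ne (measure_mono h)

/-- Square roots of planar areas are superadditive. -/
theorem sqrt_area_add {A B : Set (Fin 2 → ℝ)} (hA : IsCompact A) (hB : IsCompact B)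
    (hAc : Convex ℝ A) (hBc : Convex ℝ B) (ha : A.Nonempty) (hb : B.Nonempty) :
    √(area2 A) + √(area2 B) ≤ √(area2 (A + B)) := by
  obtain ⟨a, ha⟩ := ha
  obtain ⟨b, hb⟩ := hb
  have hAB : IsCompact (A + B) := hA.add hB
  rcases (ENNReal.toReal_nonneg (a := volume A)).eq_or_lt' with hA0 | hA0
  · have h : area2 B ≤ area2 (A + B) := by
      rw [show area2 B = area2 (a +ᵥ B) by simp [area2, measure_vadd]]
      exact area2_mono hAB (by rintro _ ⟨x, hx, rfl⟩; exact add_mem_add ha hx)
    rw [show area2 A = 0 from hA0, sqrt_zero, zero_add]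
    exact sqrt_le_sqrt h
  rcases (ENNReal.toReal_nonneg (a := volume B)).eq_or_lt' with hB0 | hB0
  · have h : area2 A ≤ area2 (A + B) := by
      rw [show area2 A = area2 (b +ᵥ A) by simp [area2, measure_vadd]]
      exact area2_mono hAB (by
        rintro _ ⟨x, hx, rfl⟩
        simpa [add_comm] using add_mem_add hx hb)
    rw [show area2 B = 0 from hB0, sqrt_zero, add_zero]
    exact sqrt_le_sqrt h
  have h := Sharp.bm_root (k := 2) two_ne_zero (hA.smul (2 : ℝ)) (hB.smul (2 : ℝ)) hAB
    (hAc.smul 2) (hBc.smul 2) (by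
      show 0 < area2 ((2 : ℝ) • A)
      rw [area2_smul zero_le_two]; exact mul_pos (by norm_num) hA0) (by
      show 0 < area2 ((2 : ℝ) • B)
      rw [area2_smul zero_le_two]; exact mul_pos (by norm_num) hB0)
    (l := 1 / 2) (μ := 1 / 2) (by norm_num) (by norm_num) (by norm_num)
    (by
      rintro _ ⟨x, hx, rfl⟩ _ ⟨y, hy, rfl⟩
      simpa [smul_smul] using add_mem_add hx hy)
  change (1 / 2 * area2 ((2 : ℝ) • A) ^ _ + 1 / 2 * area2 ((2 : ℝ) • B) ^ _) ^ 2 ≤ area2 _ at h
  rw [area2_smul zero_le_two, area2_smul zero_le_two] at h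
  have h' : (√(area2 A) + √(area2 B)) ^ 2 ≤ area2 (A + B) := by
    refine le_trans (le_of_eq ?_) h
    rw [show (((2 : ℕ) : ℝ))⁻¹ = 1 / 2 by norm_num, ← sqrt_eq_rpow, ← sqrt_eq_rpow,
      sqrt_mul (by norm_num), sqrt_mul (by norm_num), sqrt_sq zero_le_two]
    ring
  exact (le_sqrt (by positivity) ENNReal.toReal_nonneg).2 h'

/-- The difference body has at least four times the area. -/
theorem area_diff {S : Set (Fin 2 → ℝ)} (hS : IsCompact S) (hc : Convex ℝ S) (hne : S.Nonempty) :
    2 * √(area2 S) ≤ √(area2 (S + -S)) := by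
  have h := sqrt_area_add hS hS.neg hc hc.neg hne hne.neg
  rwa [area2_neg, ← two_mul] at h

/-- A unit square sheared along a unit vector. -/
theorem volume_planar_image (w : Fin 2 → ℝ) (hw : w 0 ^ 2 + w 1 ^ 2 = 1) (p q : ℝ) :
    volume ((fun x : Fin 2 → ℝ => ![x 0 * w 0 + x 1 * w 1, x 0 * w 1 - x 1 * w 0]) ''
      (univ.pi ![Icc (0 : ℝ) 1, uIcc p q])) = ENNReal.ofReal |q - p| := by
  set L := Matrix.toLin' !![w 0, w 1; w 1, -w 0]
  have hL : (fun x : Fin 2 → ℝ => ![x 0 * w 0 + x 1 * w 1, x 0 * w 1 - x 1 * w 0]) = L := by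
    funext x i
    fin_cases i <;> simp [L, Matrix.toLin'_apply, Matrix.mulVec, dotProduct, Fin.sum_univ_two,
      Matrix.vecHead, Matrix.vecTail] <;> ring
  rw [hL, Measure.addHaar_image_linearMap, LinearMap.det_toLin', Matrix.det_fin_two_of,
    show w 0 * -w 0 - w 1 * w 1 = -1 by linear_combination -hw, abs_neg, abs_one,
    ENNReal.ofReal_one, one_mul, volume_pi_pi, Fin.prod_univ_two]
  simp [Real.volume_interval]

end Vale.Agent.P237.Three
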