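import Vale.Agent.P237.Three.KeyPins
import Vale.Agent.P237.Three.Supp
import Mathlib.LinearAlgebra.QuadraticForm.Basic
import Mathlib.MeasureTheory.Function.Jacobian

/-!
P237, dimension three: the inertia position (section 2.1 of the proof note).
-/

noncomputable section

open MeasureTheory Set Metric
open scoped Pointwise RealInnerProductSpace

namespace Vale.Agent.P237.Three

/-- The inertia form is a multiple of the inner product. -/
def Iso (K : Set (E 3)) : Prop := ∃ c : ℝ, ∀ v : E 3, ∫ x in K, ⟪x, v⟫ ^ 2 = c * ‖v‖ ^ 2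

theorem setIntegral_image_equiv {K : Set (E 3)} (hK : MeasurableSet K) (A : E 3 ≃ₗ[ℝ] E 3)
    (g : E 3 → ℝ) :
    ∫ y in A '' K, g y = |LinearMap.det (A : E 3 →ₗ[ℝ] E 3)| * ∫ x in K, g (A x) := by
  set L := LinearMap.toContinuousLinearMap (A : E 3 →ₗ[ℝ] E 3)
  have h := integral_image_eq_integral_abs_det_fderiv_smul volume hK (f := A) (f' := fun _ => L)
    (fun x _ => (L.hasFDerivAt (x := x)).hasFDerivWithinAt) A.injective.injOn g
  rw [h]
  simp only [smul_eq_mul]
  rw [integral_const_mul]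
  rfl

theorem body3_image {K : Set (E 3)} (hK : Body3 K) (S : E 3 ≃ₗ[ℝ] E 3) : Body3 (S '' K) :=
  ⟨hK.1.image S.toContinuousLinearEquiv.continuous, hK.2.1.linear_image S.toLinearMap,
    (hK.2.2.image S).mono (S.toContinuousLinearEquiv.toHomeomorph.isOpenMap.image_interior_subset K)⟩

theorem isSym_image {K : Set (E 3)} (hK : IsSym K) (S : E 3 ≃ₗ[ℝ] E 3) : IsSym (S '' K) := by
  rintro _ ⟨x, hx, rfl⟩
  exact ⟨-x, hK x hx, map_neg S x⟩

theorem integral_inner_sq_pos {K : Set (E 3)} (hK : Body3 K) {v : E 3} (hv : v ≠ 0) :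
    0 < ∫ x in K, ⟪x, v⟫ ^ 2 := by
  rw [setIntegral_pos_iff_support_of_nonneg_ae (ae_of_all _ fun x => sq_nonneg _)
    ((by fun_prop : Continuous fun x : E 3 => ⟪x, v⟫ ^ 2).continuousOn.integrableOn_compact hK.1)]
  set U := interior K ∩ {x : E 3 | ⟪x, v⟫ ≠ 0}
  have hU : IsOpen U := isOpen_interior.inter (isOpen_ne.preimage (by fun_prop))
  have hne : U.Nonempty := by
    obtain ⟨x, hx⟩ := hK.2.2
    rcases eq_or_ne ⟪x, v⟫ 0 with h | h
    · obtain ⟨r, hr, hb⟩ := Metric.isOpen_iff.1 isOpen_interior x hx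
      refine ⟨x + (r / (2 * ‖v‖)) • v, hb ?_, ?_⟩
      · have hn : 0 < ‖v‖ := norm_pos_iff.2 hv
        rw [mem_ball, dist_eq_norm, add_sub_cancel_left, norm_smul,
          Real.norm_of_nonneg (by positivity), div_mul_eq_mul_div]
        rw [div_lt_iff₀ (by positivity)]
        nlinarith
      · show ⟪x + _, v⟫ ≠ 0
        rw [inner_add_left, h, zero_add, real_inner_smul_left, real_inner_self_eq_norm_sq]
        have hn : 0 < ‖v‖ := norm_pos_iff.2 hv
        positivity
    · exact ⟨x, hx, h⟩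
  refine (hU.measure_pos volume hne).trans_le (measure_mono ?_)
  exact fun x hx => ⟨by simpa [Function.mem_support] using hx.2, interior_subset hx.1⟩

/-- A linear image has isotropic inertia. -/
theorem exists_iso {K : Set (E 3)} (hK : Body3 K) : ∃ A : E 3 ≃ₗ[ℝ] E 3, Iso (A '' K) := by
  classical
  have hint : ∀ v w : E 3, IntegrableOn (fun x => ⟪x, v⟫ * ⟪x, w⟫) K := fun v w =>
    (by fun_prop : Continuous fun x : E 3 => ⟪x, v⟫ * ⟪x, w⟫).continuousOn.integrableOn_compact hK.1
  let B : LinearMap.BilinForm ℝ (E 3) :=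
    LinearMap.mk₂ ℝ (fun v w => ∫ x in K, ⟪x, v⟫ * ⟪x, w⟫)
      (fun v v' w => by
        simp only [inner_add_right, add_mul]
        exact integral_add (hint v w) (hint v' w))
      (fun c v w => by simp only [real_inner_smul_right, mul_assoc, smul_eq_mul, integral_const_mul])
      (fun v w w' => by
        simp only [inner_add_right, mul_add]
        exact integral_add (hint v w) (hint v w'))
      (fun c v w => by
        simp only [real_inner_smul_right, smul_eq_mul, mul_left_comm, integral_const_mul])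
  have hB : ∀ v w, B v w = ∫ x in K, ⟪x, v⟫ * ⟪x, w⟫ := fun v w => rfl
  have hsymm : LinearMap.IsSymm B := ⟨fun v w => by simp [hB, mul_comm]⟩
  obtain ⟨b₀, hb₀⟩ := LinearMap.BilinForm.exists_orthogonal_basis hsymm
  set b₁ := b₀.reindex (finCongr (finrank_euclideanSpace_fin (𝕜 := ℝ) (n := 3)))
  have ho : ∀ i j, i ≠ j → B (b₁ i) (b₁ j) = 0 := fun i j hij => by
    simp only [b₁, Module.Basis.reindex_apply]
    exact hb₀ fun h => hij (by simpa using h)
  have hpos : ∀ i, 0 < B (b₁ i) (b₁ i) := fun i => by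
    rw [hB]
    simpa [sq] using integral_inner_sq_pos hK (b₁.ne_zero i)
  set b : Fin 3 → E 3 := fun i => (√(B (b₁ i) (b₁ i)))⁻¹ • b₁ i
  have hbb : ∀ i j, B (b i) (b j) = if i = j then 1 else 0 := fun i j => by
    simp only [b, map_smul, LinearMap.smul_apply, smul_eq_mul]
    rcases eq_or_ne i j with rfl | h
    · rw [if_pos rfl, ← mul_assoc, ← mul_inv, Real.mul_self_sqrt (hpos i).le,
        inv_mul_cancel₀ (hpos i).ne']
    · rw [ho i j h, if_neg h, mul_zero, mul_zero]
  set A₀ : E 3 →ₗ[ℝ] E 3 :=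
    { toFun := fun x => WithLp.toLp 2 fun i => ⟪x, b i⟫
      map_add' := fun x y => by ext i; simp [inner_add_left]
      map_smul' := fun c x => by ext i; simp [real_inner_smul_left] }
  have hinj : Function.Injective A₀ := by
    refine (injective_iff_map_eq_zero A₀).2 fun x hx => ?_
    refine ext_inner_right ℝ fun y => ?_
    rw [inner_zero_left, ← b₁.sum_repr y, inner_sum]
    refine Finset.sum_eq_zero fun i _ => ?_
    have h : ⟪x, b i⟫ = 0 := by simpa [A₀] using congrArg (fun z : E 3 => z i) hx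
    simp only [b, real_inner_smul_right, mul_eq_zero, inv_eq_zero,
      (Real.sqrt_pos.2 (hpos i)).ne', false_or] at h
    rw [real_inner_smul_right, h, mul_zero]
  set A := LinearEquiv.ofInjectiveEndo A₀ hinj
  refine ⟨A, |LinearMap.det (A : E 3 →ₗ[ℝ] E 3)|, fun v => ?_⟩
  rw [setIntegral_image_equiv hK.1.measurableSet]
  congr 1
  set w := ∑ i, v i • b i
  have hA : ∀ x, ⟪A x, v⟫ = ⟪x, w⟫ := fun x => by
    simp [A, A₀, w, PiLp.inner_apply, inner_sum, real_inner_smul_right, Finset.mul_sum, mul_assoc]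
  simp only [hA, sq]
  rw [← hB, ← sq, EuclideanSpace.norm_sq_eq]
  simp [w, map_sum, hbb, sq]

theorem positionStmt : PositionStmt := by
  intro K hK hs
  obtain ⟨A, c, hc⟩ := exists_iso hK
  set K₁ := A '' K
  have hK₁ : Body3 K₁ := body3_image hK A
  have hne := body3_nonempty hK₁
  have hs₁ : IsSym K₁ := isSym_image hs A
  obtain ⟨e, he, hmin⟩ := (isCompact_sphere (0 : E 3) 1).exists_isMinOn
    (NormedSpace.sphere_nonempty.2 zero_le_one) (continuous_supp hK₁.1 hne).continuousOn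
  rw [mem_sphere_zero_iff_norm] at he
  set r := supp K₁ e
  have hr : 0 < r := supp_pos hK₁ hs₁ fun h => by simp [h] at he
  have hv : Orthonormal ℝ (({0} : Set (Fin 3)).domRestrict fun _ => e) := by
    rw [orthonormal_iff_ite]
    intro i j
    rw [if_pos (Subsingleton.elim i j)]
    simp [Set.domRestrict, he]
  obtain ⟨b, hb⟩ := hv.exists_orthonormalBasis_extension_of_card_eq (by simp)
  set R : E 3 ≃ₗ[ℝ] E 3 := b.repr.toLinearEquiv ≪≫ₗ LinearEquiv.smulOfNeZero ℝ (E 3) r⁻¹
    (inv_ne_zero hr.ne') with hR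
  have hRv : ∀ x v, ⟪R x, v⟫ = r⁻¹ * ⟪x, b.repr.symm v⟫ := fun x v => by
    rw [← b.repr.inner_map_map x, b.repr.apply_symm_apply]
    simp [R, real_inner_smul_left]
  refine ⟨A ≪≫ₗ R, ?_⟩
  have himg : (A ≪≫ₗ R) '' K = R '' K₁ := by rw [image_image]; rfl
  rw [himg]
  refine ⟨body3_image hK₁ R, isSym_image hs₁ R, fun y hy => ?_, ?_, fun i => ?_⟩
  · refine mem_of_supp (body3_image hK₁ R).1 (body3_image hK₁ R).2.1 (hne.image R) fun v => ?_
    rcases eq_or_ne v 0 with rfl | hv0
    · obtain ⟨x, hx⟩ := hne.image R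
      simpa using le_supp (body3_image hK₁ R).1 hx (0 : E 3)
    set u := ‖v‖⁻¹ • b.repr.symm v
    have hn : 0 < ‖v‖ := norm_pos_iff.2 hv0
    have hu : ‖u‖ = 1 := by
      rw [norm_smul, norm_inv, norm_norm, LinearIsometryEquiv.norm_map, inv_mul_cancel₀ hn.ne']
    obtain ⟨x, hx, hxe⟩ := exists_supp hK₁.1 hne u
    have h1 : r ≤ ⟪x, u⟫ := hxe ▸ hmin (mem_sphere_zero_iff_norm.2 hu)
    have h2 := le_supp (body3_image hK₁ R).1 (mem_image_of_mem R hx) v
    rw [hRv] at h2
    rw [real_inner_smul_right, ← div_eq_inv_mul, le_div_iff₀ hn] at h1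
    calc ⟪y, v⟫ ≤ ‖v‖ := (real_inner_le_norm y v).trans
          (mul_le_of_le_one_left hn.le (mem_closedBall_zero_iff.1 hy))
      _ = r⁻¹ * (r * ‖v‖) := by field_simp
      _ ≤ r⁻¹ * ⟪x, b.repr.symm v⟫ := mul_le_mul_of_nonneg_left h1 (inv_nonneg.2 hr.le)
      _ ≤ _ := h2
  · rintro _ ⟨x, hx, rfl⟩
    have h1 : R x 0 = r⁻¹ * ⟪e, x⟫ := by
      simp [R, OrthonormalBasis.repr_apply_apply, hb 0 rfl]
    have h2 := le_supp hK₁.1 hx e
    have h3 := le_supp hK₁.1 (hs₁ x hx) e
    rw [inner_neg_left] at h3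
    rw [real_inner_comm] at h2 h3
    rw [h1, abs_mul, abs_inv, abs_of_pos hr, inv_mul_le_iff₀ hr, mul_one, abs_le]
    constructor <;> linarith
  · have hi : ∀ j : Fin 3, ∫ y in R '' K₁, y j ^ 2 =
        |LinearMap.det (R : E 3 →ₗ[ℝ] E 3)| * (r⁻¹ ^ 2 * c) := by
      intro j
      rw [setIntegral_image_equiv hK₁.1.measurableSet]
      congr 1
      have : ∀ x : E 3, R x j ^ 2 = r⁻¹ ^ 2 * ⟪x, b.repr.symm (EuclideanSpace.single j 1)⟫ ^ 2 :=
        fun x => by
          rw [← mul_pow, ← hRv, EuclideanSpace.inner_single_right]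
          simp
      simp only [this]
      rw [integral_const_mul, hc, LinearIsometryEquiv.norm_map]
      simp
    rw [hi i, hi 0]

end Vale.Agent.P237.Three
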